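import Mathlib

/-!
# P167, general `q`, block Q-LAM (LC): counting the corners

Along a closed path every change `a → a + 1` of the lifted direction has a factor `g a`, every change
`a + 1 → a` a factor at most `C / g a`. Then the product telescopes.
-/

namespace Vale.Agent.P167.H318.LC

open Finset

/-- Potential of an additive weight. -/
noncomputable def Lm (ℓ : ℤ → ℝ) (a : ℤ) : ℝ := ∑ i ∈ Ico 0 a, ℓ i - ∑ i ∈ Ico a 0, ℓ i

variable {ℓ g : ℤ → ℝ} {a : ℤ} {u : ℕ → ℤ} {H : ℕ → ℝ} {C : ℝ} {x y : ℕ}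

theorem Lm_succ : Lm ℓ (a + 1) = Lm ℓ a + ℓ a := by
  unfold Lm
  rcases le_or_gt 0 a with h | h
  · rw [Finset.Ico_eq_empty (show ¬ a + 1 < 0 by omega), Finset.Ico_eq_empty (show ¬ a < 0 by omega)]
    have e : Ico 0 (a + 1) = insert a (Ico 0 a) := by
      ext i
      rw [Finset.mem_insert, Finset.mem_Ico, Finset.mem_Ico]
      omega
    rw [e, Finset.sum_insert (by rw [Finset.mem_Ico]; omega)]
    simp
    ring
  · rw [Finset.Ico_eq_empty (show ¬ 0 < a + 1 by omega), Finset.Ico_eq_empty (show ¬ 0 < a by omega)]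
    have e : Ico a 0 = insert a (Ico (a + 1) 0) := by
      ext i
      rw [Finset.mem_insert, Finset.mem_Ico, Finset.mem_Ico]
      omega
    rw [e, Finset.sum_insert (by rw [Finset.mem_Ico]; omega)]
    simp

/-- Multiplicative potential. -/
noncomputable def Gm (g : ℤ → ℝ) (a : ℤ) : ℝ := Real.exp (Lm (fun i => Real.log (g i)) a)

theorem Gm_pos : 0 < Gm g a := Real.exp_pos _

theorem Gm_succ (hg : 0 < g a) : Gm g (a + 1) = Gm g a * g a := by
  unfold Gm
  rw [Lm_succ, Real.exp_add, Real.exp_log hg]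

/-- One turn. -/
theorem Gm_turn (hg : ∀ a, 0 < g a) (hp : ∀ a, g (a + 4) = g a) (a : ℤ) :
    Gm g (a + 4) = Gm g a * (g 0 * g 1 * g 2 * g 3) := by
  have key : ∀ a, g a * g (a + 1) * g (a + 2) * g (a + 3) = g 0 * g 1 * g 2 * g 3 := by
    have hs : ∀ a, g (a + 1) * g (a + 1 + 1) * g (a + 1 + 2) * g (a + 1 + 3) =
        g a * g (a + 1) * g (a + 2) * g (a + 3) := by
      intro a
      rw [show a + 1 + 3 = a + 4 by ring, hp a, show a + 1 + 1 = a + 2 by ring,
        show a + 1 + 2 = a + 3 by ring]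
      ring
    intro a
    induction a using Int.induction_on with
    | zero => norm_num
    | succ i ih => rw [hs, ih]
    | pred i ih =>
      rw [← ih, ← hs (-(i : ℤ) - 1)]
      congr 1 <;> norm_num
  have e : a + 4 = a + 1 + 1 + 1 + 1 := by ring
  rw [e, Gm_succ (hg _), Gm_succ (hg _), Gm_succ (hg _), Gm_succ (hg _), ← key a,
    show a + 1 + 1 = a + 2 by ring, show a + 2 + 1 = a + 3 by ring]
  ring

/-- Several turns. -/
theorem Gm_turns (hg : ∀ a, 0 < g a) (hp : ∀ a, g (a + 4) = g a) (a w : ℤ) :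
    Gm g (a + 4 * w) = Gm g a * (g 0 * g 1 * g 2 * g 3) ^ w := by
  have hG : 0 < g 0 * g 1 * g 2 * g 3 := by
    have h0 := hg 0
    have h1 := hg 1
    have h2 := hg 2
    have h3 := hg 3
    positivity
  induction w using Int.induction_on with
  | zero => simp
  | succ i ih =>
    rw [show a + 4 * ((i : ℤ) + 1) = a + 4 * i + 4 by ring, Gm_turn hg hp, ih, zpow_add₀ hG.ne',
      zpow_one]
    ring
  | pred i ih =>
    have h := Gm_turn hg hp (a + 4 * (-(i : ℤ) - 1))
    rw [show a + 4 * (-(i : ℤ) - 1) + 4 = a + 4 * (-(i : ℤ)) by ring, ih] at h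
    rw [zpow_sub_one₀ hG.ne', ← mul_assoc, h, mul_assoc, mul_inv_cancel₀ hG.ne', mul_one]

/-- **Counting the corners.** -/
theorem count (hC : 0 ≤ C) (hg : ∀ a, 0 < g a) (hH : ∀ j, 0 ≤ H j) (hxy : x ≤ y)
    (h : ∀ j, x ≤ j → j < y → (u (j + 1) = u j + 1 ∧ H j ≤ g (u j)) ∨
      (u (j + 1) = u j - 1 ∧ H j ≤ C / g (u (j + 1))) ∨ (u (j + 1) = u j ∧ H j ≤ 1)) :
    ∏ j ∈ Ico x y, H j ≤ C ^ ((Ico x y).filter fun j => u (j + 1) = u j - 1).card *
      (Gm g (u y) / Gm g (u x)) := by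
  induction y, hxy using Nat.le_induction with
  | base => simp [Gm_pos.ne']
  | succ y hy ih =>
    have ih := ih fun j h1 h2 => h j h1 (by omega)
    have e : Ico x (y + 1) = insert y (Ico x y) := by
      ext i
      rw [Finset.mem_insert, Finset.mem_Ico, Finset.mem_Ico]
      omega
    have hy' : y ∉ Ico x y := by
      rw [Finset.mem_Ico]
      omega
    have hp : (0 : ℝ) ≤ ∏ j ∈ Ico x y, H j := Finset.prod_nonneg fun j _ => hH j
    have hR0 : 0 ≤ C ^ ((Ico x y).filter fun j => u (j + 1) = u j - 1).card *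
      (Gm g (u y) / Gm g (u x)) := hp.trans ih
    have gx : 0 < Gm g (u x) := Gm_pos
    have gy : 0 < Gm g (u y) := Gm_pos
    rw [e, Finset.prod_insert hy', Finset.filter_insert]
    rcases h y hy (by omega) with ⟨h1, h2⟩ | ⟨h1, h2⟩ | ⟨h1, h2⟩
    · rw [if_neg (by omega), h1, Gm_succ (hg _)]
      have := mul_le_mul h2 ih hp (hg _).le
      refine this.trans (le_of_eq ?_)
      field_simp
    · rw [if_pos h1, Finset.card_insert_of_notMem (by
        rw [Finset.mem_filter]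
        exact fun h => hy' h.1)]
      have h3 : Gm g (u y) = Gm g (u (y + 1)) * g (u (y + 1)) := by
        rw [← Gm_succ (hg _)]
        congr 1
        omega
      have h4 := hg (u (y + 1))
      have := mul_le_mul h2 ih hp (div_nonneg hC h4.le)
      refine this.trans (le_of_eq ?_)
      rw [h3, pow_succ]
      field_simp
    · rw [if_neg (by omega), h1]
      have := mul_le_mul h2 ih hp (by norm_num)
      rwa [one_mul] at this

/-- **Counting the corners**, at most `m` reflex corners. -/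
theorem count_le (hC : 1 ≤ C) (hg : ∀ a, 0 < g a) (hH : ∀ j, 0 ≤ H j) (hxy : x ≤ y) {m : ℕ}
    (hm : ((Ico x y).filter fun j => u (j + 1) = u j - 1).card ≤ m)
    (h : ∀ j, x ≤ j → j < y → (u (j + 1) = u j + 1 ∧ H j ≤ g (u j)) ∨
      (u (j + 1) = u j - 1 ∧ H j ≤ C / g (u (j + 1))) ∨ (u (j + 1) = u j ∧ H j ≤ 1)) :
    ∏ j ∈ Ico x y, H j ≤ C ^ m * (Gm g (u y) / Gm g (u x)) := by
  refine (count (by linarith) hg hH hxy h).trans ?_
  exact mul_le_mul_of_nonneg_right (pow_le_pow_right₀ hC hm) (div_nonneg Gm_pos.le Gm_pos.le)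

/-- **A polygon with one turn.** -/
theorem count_turn (hC : 1 ≤ C) (hg : ∀ a, 0 < g a) (hper : ∀ a, g (a + 4) = g a)
    (hH : ∀ j, 0 ≤ H j) (hxy : x ≤ y) {m : ℕ}
    (hm : ((Ico x y).filter fun j => u (j + 1) = u j - 1).card ≤ m) {w : ℤ}
    (hw : u y = u x + 4 * w)
    (h : ∀ j, x ≤ j → j < y → (u (j + 1) = u j + 1 ∧ H j ≤ g (u j)) ∨
      (u (j + 1) = u j - 1 ∧ H j ≤ C / g (u (j + 1))) ∨ (u (j + 1) = u j ∧ H j ≤ 1)) :
    ∏ j ∈ Ico x y, H j ≤ C ^ m * (g 0 * g 1 * g 2 * g 3) ^ w := by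
  refine (count_le hC hg hH hxy hm h).trans (le_of_eq ?_)
  rw [hw, Gm_turns hg hper]
  have := (Gm_pos (g := g) (a := u x)).ne'
  field_simp

end Vale.Agent.P167.H318.LC
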