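import Vale.Agent.P167.H318.LC.Turn
import Vale.Agent.P167.H318.LC.Cnt

/-!
# P167, general `q`, block Q-LAM (LC): counting the corners of a unit polygon

`g`: factors of the left turns (by the incoming direction); the factor of the right turn
`d + 1 → d` is at most `C / g d`.
-/

namespace Vale.Agent.P167.H318.LC

open Finset Vale.Agent.P167.Top
open Vale.Agent.P167.Enl (vec_eq_mod)
open Vale.Agent.P167.E6 (IsPolygon Encloses dir face)
open Vale.Agent.P167.H825 (pdir)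
open Vale.Agent.P167.H871 (vec_fin)

variable {l : ℕ} {p : ZMod l → ℤ × ℤ} {S₀ : Finset (ℤ × ℤ)} {u : ℕ → ℤ}

/-- Lifted directions of the unit polygon. -/
theorem unit_dirs (hp : IsPolygon p) (he : Encloses p S₀) : ∃ u : ℕ → ℤ,
    (∀ i, u i % 4 = (((pdir p i).val : ℕ) : ℤ)) ∧ (∀ i, |u (i + 1) - u i| ≤ 1) ∧
      ∀ i, u (i + l) = u i + 4 := by
  have hl : NeZero l := ⟨by have := hp.1; omega⟩
  obtain ⟨u, hu⟩ := H871.exists_bd hp he
  refine ⟨u, fun i => ?_, hu.turn, fun i => by rw [hu.per i]; ring⟩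
  have h1 := hu.step i
  obtain ⟨r, hr⟩ := hp.2.2 (i : ZMod l)
  have h2 : pdir p i = r := by
    unfold pdir
    rw [hr, add_sub_cancel_left]
    clear * - 
    revert r
    decide
  push_cast at h1
  rw [hr] at h1
  have h3 := add_left_cancel h1
  rw [← vec_fin] at h3
  have h4 := vec_eq_mod h3
  rw [h2]
  have := r.isLt
  omega

/-- Factors of the turns, lifted. -/
noncomputable def gZ (g : Fin 4 → ℝ) (a : ℤ) : ℝ := g ⟨(a % 4).toNat, by omega⟩

theorem gZ_pos {g : Fin 4 → ℝ} (hg : ∀ d, 0 < g d) (a : ℤ) : 0 < gZ g a := hg _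

theorem gZ_per (g : Fin 4 → ℝ) (a : ℤ) : gZ g (a + 4) = gZ g a := by
  unfold gZ
  congr 2
  omega

theorem gZ_eq (g : Fin 4 → ℝ) {a : ℤ} {d : Fin 4} (h : a % 4 = ((d.val : ℕ) : ℤ)) :
    gZ g a = g d := by
  unfold gZ
  congr 1
  apply Fin.ext
  show (a % 4).toNat = d.val
  omega

theorem gZ_prod (g : Fin 4 → ℝ) : gZ g 0 * gZ g 1 * gZ g 2 * gZ g 3 = g 0 * g 1 * g 2 * g 3 := by
  rw [gZ_eq g (d := 0) rfl, gZ_eq g (d := 1) rfl, gZ_eq g (d := 2) rfl, gZ_eq g (d := 3) rfl]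

/-- The hypothesis on the factors of the turns. -/
structure Fac (p : ZMod l → ℤ × ℤ) (g : Fin 4 → ℝ) (C : ℝ) (H : ℕ → ℝ) (x y : ℕ) : Prop where
  one : 1 ≤ C
  pos : ∀ d, 0 < g d
  nn : ∀ i, 0 ≤ H i
  left : ∀ i, x ≤ i → i < y → pdir p (i + 1) = pdir p i + 1 → H i ≤ g (pdir p i)
  right : ∀ i, x ≤ i → i < y → pdir p i = pdir p (i + 1) + 1 → H i ≤ C / g (pdir p (i + 1))

open Classical in
/-- **Counting.** -/
theorem cnt_gen (hu : ∀ i, u i % 4 = (((pdir p i).val : ℕ) : ℤ)) (hu' : ∀ i, |u (i + 1) - u i| ≤ 1)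
    {g : Fin 4 → ℝ} {C : ℝ} {H : ℕ → ℝ} {x y : ℕ} (hxy : x ≤ y) (h : Fac p g C H x y) :
    ∏ i ∈ Ico x y, (if pdir p (i + 1) ≠ pdir p i then H i else 1) ≤
      C ^ (y - x) * (Gm (gZ g) (u y) / Gm (gZ g) (u x)) := by
  refine count_le h.one (gZ_pos h.pos) (fun j => ?_) hxy ?_ fun j h1 h2 => ?_
  · split_ifs
    · exact h.nn j
    · exact zero_le_one
  · exact (Finset.card_filter_le _ _).trans (by rw [Nat.card_Ico])
  · have k1 := hu j
    have k2 := hu (j + 1)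
    have k3 := hu' j
    rw [abs_le] at k3
    have b1 := (pdir p j).isLt
    have b2 := (pdir p (j + 1)).isLt
    have hc : u (j + 1) = u j + 1 ∨ u (j + 1) = u j - 1 ∨ u (j + 1) = u j := by omega
    rcases hc with hc | hc | hc
    · left
      refine ⟨hc, ?_⟩
      have e1 : pdir p (j + 1) = pdir p j + 1 := by
        apply Fin.ext
        rw [Fin.val_add]
        show _ = (_ + 1) % 4
        omega
      have e2 : pdir p (j + 1) ≠ pdir p j := by
        intro h3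
        rw [h3] at k2
        omega
      rw [if_pos e2, gZ_eq g k1]
      exact h.left j h1 h2 e1
    · right; left
      refine ⟨hc, ?_⟩
      have e1 : pdir p j = pdir p (j + 1) + 1 := by
        apply Fin.ext
        rw [Fin.val_add]
        show _ = (_ + 1) % 4
        omega
      have e2 : pdir p (j + 1) ≠ pdir p j := by
        intro h3
        rw [h3] at k2
        omega
      rw [if_pos e2, gZ_eq g k2]
      exact h.right j h1 h2 e1
    · right; right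
      refine ⟨hc, ?_⟩
      have e2 : pdir p (j + 1) = pdir p j := by
        apply Fin.ext
        omega
      rw [if_neg (by rw [e2]; simp)]

theorem pow_C {C : ℝ} (hC : 1 ≤ C) {a b : ℕ} (h : a ≤ b) : C ^ a ≤ C ^ b := pow_le_pow_right₀ hC h

open Classical in
/-- **Free or wired, base at a convex corner.** -/
theorem cnt_zero (hp : IsPolygon p) (he : Encloses p S₀) {g : Fin 4 → ℝ} {C : ℝ} {H : ℕ → ℝ}
    (hb : pdir p 0 = pdir p (l - 1) + 1) (h : Fac p g C H 0 (l - 1)) :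
    ∏ i ∈ range (l - 1), (if pdir p (i + 1) ≠ pdir p i then H i else 1) ≤
      C ^ l * (g (pdir p 0) * g (pdir p 0 + 1) * g (pdir p 0 + 2)) := by
  have hl := hp.1
  obtain ⟨u, h1, h2, h3⟩ := unit_dirs hp he
  have h4 := cnt_gen h1 h2 (Nat.zero_le (l - 1)) h
  rw [Finset.range_eq_Ico]
  refine h4.trans ?_
  have k1 := h1 0
  have k2 := h1 (l - 1)
  have k3 := h2 (l - 1)
  have k4 := h3 0
  rw [show l - 1 + 1 = l by omega] at k3
  rw [zero_add] at k4
  rw [hb, Fin.val_add] at k1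
  rw [abs_le] at k3
  have b2 := (pdir p (l - 1)).isLt
  have e0 : ((1 : Fin 4).val) = 1 := rfl
  rw [e0] at k1
  have e1 : u (l - 1) = u 0 + 3 := by omega
  have e2 : u (l - 1) = u 0 + 1 + 1 + 1 := by rw [e1]; ring
  have hg := gZ_pos h.pos
  rw [e2, Gm_succ (hg _), Gm_succ (hg _), Gm_succ (hg _)]
  have k1' := h1 0
  have c0 : gZ g (u 0) = g (pdir p 0) := gZ_eq g k1'
  have c1 : gZ g (u 0 + 1) = g (pdir p 0 + 1) := gZ_eq g (by
    rw [Fin.val_add, e0]
    omega)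
  have c2 : gZ g (u 0 + 1 + 1) = g (pdir p 0 + 2) := gZ_eq g (by
    rw [Fin.val_add]
    have : ((2 : Fin 4).val) = 2 := rfl
    rw [this]
    omega)
  rw [c0, c1, c2]
  have hG : 0 < Gm (gZ g) (u 0) := Gm_pos
  have e3 : Gm (gZ g) (u 0) * g (pdir p 0) * g (pdir p 0 + 1) * g (pdir p 0 + 2) /
      Gm (gZ g) (u 0) = g (pdir p 0) * g (pdir p 0 + 1) * g (pdir p 0 + 2) := by
    field_simp
  rw [e3]
  have p0 := h.pos (pdir p 0)
  have p1 := h.pos (pdir p 0 + 1)
  have p2 := h.pos (pdir p 0 + 2)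
  exact mul_le_mul_of_nonneg_right (pow_C h.one (by omega)) (by positivity)

open Classical in
/-- **Free or wired, base on a side.** -/
theorem cnt_flat (hp : IsPolygon p) (he : Encloses p S₀) {g : Fin 4 → ℝ} {C : ℝ} {H : ℕ → ℝ}
    (h : Fac p g C H 0 l) :
    ∏ i ∈ range l, (if pdir p (i + 1) ≠ pdir p i then H i else 1) ≤
      C ^ l * (g 0 * g 1 * g 2 * g 3) := by
  obtain ⟨u, h1, h2, h3⟩ := unit_dirs hp he
  have h4 := cnt_gen h1 h2 (Nat.zero_le l) h
  have k4 := h3 0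
  rw [zero_add] at k4
  rw [Finset.range_eq_Ico]
  refine h4.trans (le_of_eq ?_)
  rw [Nat.sub_zero, k4, Gm_turn (gZ_pos h.pos) (gZ_per g), gZ_prod]
  have hG : 0 < Gm (gZ g) (u 0) := Gm_pos
  field_simp

open Classical in
/-- **Dobrushin**: the free arc makes `w` turns, the wired arc `1 - w` turns. -/
theorem cnt_dob (hp : IsPolygon p) (he : Encloses p S₀) {ia : ℕ} (hia : ia ≤ l)
    (hd : pdir p ia = pdir p 0) : ∃ w : ℤ, ∀ {g g' : Fin 4 → ℝ} {C : ℝ} {H : ℕ → ℝ},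
    Fac p g C H 0 ia → Fac p g' C H ia l →
    ∏ i ∈ range ia, (if pdir p (i + 1) ≠ pdir p i then H i else 1) ≤
      C ^ l * (g 0 * g 1 * g 2 * g 3) ^ w ∧
    ∏ i ∈ Ico ia l, (if pdir p (i + 1) ≠ pdir p i then H i else 1) ≤
      C ^ l * (g' 0 * g' 1 * g' 2 * g' 3) ^ (1 - w) := by
  obtain ⟨u, h1, h2, h3⟩ := unit_dirs hp he
  have k0 := h1 0
  have k1 := h1 ia
  rw [hd] at k1
  obtain ⟨w, hw⟩ : ∃ w : ℤ, u ia = u 0 + 4 * w := ⟨(u ia - u 0) / 4, by omega⟩
  have k4 := h3 0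
  rw [zero_add] at k4
  refine ⟨w, fun {g g' C H} hF hF' => ?_⟩
  have hG : 0 < Gm (gZ g) (u 0) := Gm_pos
  have hG' : 0 < Gm (gZ g') (u ia) := Gm_pos
  have hC := hF.one
  have p0 : 0 < g 0 * g 1 * g 2 * g 3 := by
    have h0 := hF.pos 0
    have h1 := hF.pos 1
    have h2 := hF.pos 2
    have h3 := hF.pos 3
    positivity
  have p0' : 0 < g' 0 * g' 1 * g' 2 * g' 3 := by
    have h0 := hF'.pos 0
    have h1 := hF'.pos 1
    have h2 := hF'.pos 2
    have h3 := hF'.pos 3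
    positivity
  constructor
  · have h4 := cnt_gen h1 h2 (Nat.zero_le ia) hF
    rw [Finset.range_eq_Ico]
    refine h4.trans ?_
    rw [hw, Gm_turns (gZ_pos hF.pos) (gZ_per g), gZ_prod]
    have e : Gm (gZ g) (u 0) * (g 0 * g 1 * g 2 * g 3) ^ w / Gm (gZ g) (u 0) =
        (g 0 * g 1 * g 2 * g 3) ^ w := by
      field_simp
    rw [e]
    exact mul_le_mul_of_nonneg_right (pow_C hC (by omega)) (by positivity)
  · have h4 := cnt_gen h1 h2 hia hF'
    refine h4.trans ?_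
    have e1 : u l = u ia + 4 * (1 - w) := by rw [k4, hw]; ring
    rw [e1, Gm_turns (gZ_pos hF'.pos) (gZ_per g'), gZ_prod]
    have e : Gm (gZ g') (u ia) * (g' 0 * g' 1 * g' 2 * g' 3) ^ (1 - w) / Gm (gZ g') (u ia) =
        (g' 0 * g' 1 * g' 2 * g' 3) ^ (1 - w) := by
      field_simp
    rw [e]
    exact mul_le_mul_of_nonneg_right (pow_C hC (by omega)) (by positivity)

end Vale.Agent.P167.H318.LC
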