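import Vale.Agent.P167.H318.LC.Uni
import Vale.Agent.P167.H318.LC.CntP

/-!
# P167, general `q`, block Q-LAM (LC): counting the corners, in terms of the types

`Pr U h hJ`: the product of the factors `h` of the types of the special points of `U`, and `hJ` for the
junction. `Spec C h hJ`: it is between `C⁻¹` and `C` for the special polygons. Then it is at most
`C ^ m` for every `U`, with `m` depending on `U` only (`cnt_uni`).
-/

namespace Vale.Agent.P167.H318.LC

open Finset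
open Vale.Agent.P167.E6 (IsPolygon Encloses dir face)
open Vale.Agent.P167.Enl (pdir_add)
open Vale.Agent.P167.H825 (pdir)
open Vale.Agent.P167.H825.Q (Bc)
open Vale.Agent.P167.H718.Lam (Uni)
open Vale.Agent.P167.H718.Lam.Uni (Kind)

open Classical in
/-- The product of the factors of the special points. -/
noncomputable def Pr (U : Uni) (h : Kind → ℝ) (hJ : ℝ) : ℝ :=
  (∏ j ∈ U.sp, h (U.kind j)) * (if U.IsDob then hJ else 1)

/-- The hypotheses on the special polygons. -/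
structure Spec (C : ℝ) (h : Kind → ℝ) (hJ : ℝ) : Prop where
  one : 1 ≤ C
  nn : ∀ κ, 0 ≤ h κ
  nnJ : 0 ≤ hJ
  sqL : ∀ bc, FW bc → ∀ s, C⁻¹ ≤ Pr (uSq bc s) h hJ
  sqU : ∀ bc, FW bc → ∀ s, Pr (uSq bc s) h hJ ≤ C
  lU : ∀ bc, FW bc → ∀ d, Pr (uL bc d) h hJ ≤ C
  d0L : C⁻¹ ≤ Pr uD0 h hJ
  d0U : Pr uD0 h hJ ≤ C
  d4L : C⁻¹ ≤ Pr uD4 h hJ
  d4U : Pr uD4 h hJ ≤ C

/-- The arc of the free or wired polygon. -/
def frb : Bc → Bool
  | .free => true
  | _ => false

variable {U : Uni} {h : Kind → ℝ} {hJ C : ℝ} {bc : Bc}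

/-! ### the special polygons -/

theorem sp_fw (hD : ¬ U.IsDob) :
    U.sp = ((range U.l).filter fun i => pdir U.p (i + U.l - 1) ≠ pdir U.p i).image some := by
  unfold Uni.sp
  rw [if_neg hD, Finset.union_empty]

theorem sp_dob (hD : U.IsDob) :
    U.sp = ((range U.l).filter fun i => pdir U.p (i + U.l - 1) ≠ pdir U.p i).image some ∪
      {none} := by
  unfold Uni.sp
  rw [if_pos hD]

theorem prod_some (f : Option ℕ → ℝ) (A : Finset ℕ) :
    ∏ j ∈ A.image some, f j = ∏ i ∈ A, f (some i) :=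
  Finset.prod_image fun _ _ _ _ h => Option.some.inj h

theorem kind_fw {i : ℕ} (hb : FW bc) (hU : U.bc = bc) :
    U.kind (some i) = ⟨pdir U.p (i + U.l - 1), pdir U.p i, frb bc, decide (i = 0)⟩ := by
  have hD : ¬ U.IsDob := by
    unfold Uni.IsDob
    rw [hU]
    rcases hb with rfl | rfl <;> exact id
  unfold Uni.kind
  have e1 : U.onFr i = frb bc := by
    unfold Uni.onFr frb
    rw [hU]
    rcases hb with rfl | rfl <;> rfl
  simp only [e1]
  congr 1
  simp [hD]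

theorem fw_notDob (hb : FW bc) (hU : U.bc = bc) : ¬ U.IsDob := by
  unfold Uni.IsDob
  rw [hU]
  rcases hb with rfl | rfl <;> exact id

/-- The product for the free and the wired polygons. -/
theorem Pr_fw (hb : FW bc) (hU : U.bc = bc) : Pr U h hJ =
    ∏ i ∈ (range U.l).filter fun i => pdir U.p (i + U.l - 1) ≠ pdir U.p i,
      h ⟨pdir U.p (i + U.l - 1), pdir U.p i, frb bc, decide (i = 0)⟩ := by
  have hD := fw_notDob hb hU
  unfold Pr
  rw [if_neg hD, mul_one, sp_fw hD, prod_some]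
  exact Finset.prod_congr rfl fun i _ => by rw [kind_fw hb hU]

/-- Left turns. -/
def gK (h : Kind → ℝ) (b : Bool) (d : Fin 4) : ℝ := h ⟨d, d + 1, b, false⟩

theorem sq_dirs (s : Fin 4) : pdir (sqP s) 0 = s ∧ pdir (sqP s) 1 = s + 1 ∧
    pdir (sqP s) 2 = s + 2 ∧ pdir (sqP s) 3 = s + 3 ∧ pdir (sqP s) 4 = s ∧
    pdir (sqP s) 5 = s + 1 ∧ pdir (sqP s) 6 = s + 2 := by
  revert s
  decide

theorem sq_filter (s : Fin 4) : (range 4).filter (fun i => pdir (sqP s) (i + 4 - 1) ≠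
    pdir (sqP s) i) = {0, 1, 2, 3} := by
  revert s
  decide

/-- **The product for the square.** -/
theorem Pr_sq (hb : FW bc) (s : Fin 4) : Pr (uSq bc s) h hJ =
    h ⟨s + 3, s, frb bc, true⟩ * (gK h (frb bc) s * gK h (frb bc) (s + 1) *
      gK h (frb bc) (s + 2)) := by
  rw [Pr_fw hb rfl]
  have e : (range (uSq bc s).l).filter (fun i => pdir (uSq bc s).p (i + (uSq bc s).l - 1) ≠
      pdir (uSq bc s).p i) = {0, 1, 2, 3} := sq_filter s
  rw [e]
  obtain ⟨h0, h1, h2, h3, h4, h5, h6⟩ := sq_dirs s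
  rw [Finset.prod_insert (by decide), Finset.prod_insert (by decide),
    Finset.prod_insert (by decide), Finset.prod_singleton]
  show h ⟨pdir (sqP s) 3, pdir (sqP s) 0, frb bc, true⟩ *
    (h ⟨pdir (sqP s) 4, pdir (sqP s) 1, frb bc, false⟩ *
    (h ⟨pdir (sqP s) 5, pdir (sqP s) 2, frb bc, false⟩ *
    h ⟨pdir (sqP s) 6, pdir (sqP s) 3, frb bc, false⟩)) = _
  rw [h0, h1, h2, h3, h4, h5, h6]
  unfold gK
  rw [show s + 1 + 1 = s + 2 by rw [add_assoc]; rfl, show s + 2 + 1 = s + 3 by rw [add_assoc]; rfl]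
  ring

theorem l_dirs (d : Fin 4) : pdir (lP d) 0 = d + 3 ∧ pdir (lP d) 7 = d + 2 ∧
    pdir (lP d) 1 = d + 3 ∧ pdir (lP d) 2 = d ∧ pdir (lP d) 3 = d + 1 ∧ pdir (lP d) 4 = d ∧
    pdir (lP d) 5 = d + 1 ∧ pdir (lP d) 6 = d + 2 ∧ pdir (lP d) 9 = d + 3 ∧ pdir (lP d) 10 = d ∧
    pdir (lP d) 11 = d + 1 ∧ pdir (lP d) 12 = d ∧ pdir (lP d) 13 = d + 1 := by
  revert d
  decide

theorem l_filter (d : Fin 4) : (range 8).filter (fun i => pdir (lP d) (i + 8 - 1) ≠
    pdir (lP d) i) = {0, 2, 3, 4, 5, 6} := by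
  revert d
  decide

/-- **The product for the L shape.** -/
theorem Pr_l (hb : FW bc) (d : Fin 4) : Pr (uL bc d) h hJ =
    h ⟨d + 2, d + 3, frb bc, true⟩ * (gK h (frb bc) (d + 3) * gK h (frb bc) d *
      gK h (frb bc) (d + 1)) * (gK h (frb bc) d * h ⟨d + 1, d, frb bc, false⟩) := by
  rw [Pr_fw hb rfl]
  have e : (range (uL bc d).l).filter (fun i => pdir (uL bc d).p (i + (uL bc d).l - 1) ≠
      pdir (uL bc d).p i) = {0, 2, 3, 4, 5, 6} := l_filter d
  rw [e]
  obtain ⟨h0, h7, h1, h2, h3, h4, h5, h6, h9, h10, h11, h12, h13⟩ := l_dirs d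
  rw [Finset.prod_insert (by decide), Finset.prod_insert (by decide),
    Finset.prod_insert (by decide), Finset.prod_insert (by decide),
    Finset.prod_insert (by decide), Finset.prod_singleton]
  show h ⟨pdir (lP d) 7, pdir (lP d) 0, frb bc, true⟩ *
    (h ⟨pdir (lP d) 9, pdir (lP d) 2, frb bc, false⟩ *
    (h ⟨pdir (lP d) 10, pdir (lP d) 3, frb bc, false⟩ *
    (h ⟨pdir (lP d) 11, pdir (lP d) 4, frb bc, false⟩ *
    (h ⟨pdir (lP d) 12, pdir (lP d) 5, frb bc, false⟩ *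
    h ⟨pdir (lP d) 13, pdir (lP d) 6, frb bc, false⟩)))) = _
  rw [h0, h7, h2, h3, h4, h5, h6, h9, h10, h11, h12, h13]
  unfold gK
  rw [show d + 1 + 1 = d + 2 by rw [add_assoc]; rfl, show d + 3 + 1 = d by
    rw [add_assoc]; exact add_zero d]
  ring

theorem d0_filter : (range 8).filter (fun i => pdir (bqP 0) (i + 8 - 1) ≠ pdir (bqP 0) i) =
    {0, 2, 4, 6} := by
  decide

theorem d4_filter : (range 8).filter (fun i => pdir (bqP 1) (i + 8 - 1) ≠ pdir (bqP 1) i) =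
    {1, 3, 5, 7} := by
  decide

/-- The factor of the base and the junction of the Dobrushin polygons. -/
noncomputable def bj (h : Kind → ℝ) (hJ : ℝ) : ℝ := h ⟨0, 0, true, true⟩ * hJ

/-- The product of the four left turns. -/
noncomputable def g4 (h : Kind → ℝ) (b : Bool) : ℝ := gK h b 0 * gK h b 1 * gK h b 2 * gK h b 3

theorem kind_dob {i : ℕ} (hD : U.IsDob) :
    U.kind (some i) = ⟨pdir U.p (i + U.l - 1), pdir U.p i, U.onFr i, false⟩ := by
  unfold Uni.kind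
  simp [hD]

/-- The product for the Dobrushin polygons. -/
theorem Pr_dob (hD : U.IsDob) : Pr U h hJ = bj h hJ *
    ∏ i ∈ (range U.l).filter fun i => pdir U.p (i + U.l - 1) ≠ pdir U.p i,
      h ⟨pdir U.p (i + U.l - 1), pdir U.p i, U.onFr i, false⟩ := by
  unfold Pr
  rw [if_pos hD, sp_dob hD, Finset.prod_union, prod_some, Finset.prod_singleton]
  · have e : U.kind none = ⟨0, 0, true, true⟩ := rfl
    rw [e, Finset.prod_congr rfl fun i _ => by rw [kind_dob hD]]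
    unfold bj
    ring
  · rw [Finset.disjoint_singleton_right, Finset.mem_image]
    rintro ⟨i, -, hi⟩
    exact Option.some_ne_none _ hi

/-- **The product for the first Dobrushin square.** -/
theorem Pr_d0 : Pr uD0 h hJ = bj h hJ * g4 h false := by
  have hD : uD0.IsDob := trivial
  rw [Pr_dob hD]
  have e : (range uD0.l).filter (fun i => pdir uD0.p (i + uD0.l - 1) ≠ pdir uD0.p i) =
      {0, 2, 4, 6} := d0_filter
  rw [e, Finset.prod_insert (by decide), Finset.prod_insert (by decide),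
    Finset.prod_insert (by decide), Finset.prod_singleton]
  have q0 : pdir (bqP 0) 7 = 3 ∧ pdir (bqP 0) 0 = 0 ∧ pdir (bqP 0) 9 = 0 ∧ pdir (bqP 0) 2 = 1 ∧
      pdir (bqP 0) 11 = 1 ∧ pdir (bqP 0) 4 = 2 ∧ pdir (bqP 0) 13 = 2 ∧ pdir (bqP 0) 6 = 3 := by
    decide
  obtain ⟨h7, h0, h9, h2, h11, h4, h13, h6⟩ := q0
  have f0 : uD0.onFr 0 = false ∧ uD0.onFr 2 = false ∧ uD0.onFr 4 = false ∧
      uD0.onFr 6 = false := ⟨rfl, rfl, rfl, rfl⟩
  rw [f0.1, f0.2.1, f0.2.2.1, f0.2.2.2]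
  show bj h hJ * (h ⟨pdir (bqP 0) 7, pdir (bqP 0) 0, false, false⟩ *
    (h ⟨pdir (bqP 0) 9, pdir (bqP 0) 2, false, false⟩ *
    (h ⟨pdir (bqP 0) 11, pdir (bqP 0) 4, false, false⟩ *
    h ⟨pdir (bqP 0) 13, pdir (bqP 0) 6, false, false⟩))) = _
  rw [h7, h0, h9, h2, h11, h4, h13, h6]
  unfold g4 gK
  rw [show (0 : Fin 4) + 1 = 1 from rfl, show (1 : Fin 4) + 1 = 2 from rfl,
    show (2 : Fin 4) + 1 = 3 from rfl, show (3 : Fin 4) + 1 = 0 from rfl]
  ring

/-- **The product for the second Dobrushin square.** -/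
theorem Pr_d4 : Pr uD4 h hJ = bj h hJ * g4 h true := by
  have hD : uD4.IsDob := trivial
  rw [Pr_dob hD]
  have e : (range uD4.l).filter (fun i => pdir uD4.p (i + uD4.l - 1) ≠ pdir uD4.p i) =
      {1, 3, 5, 7} := d4_filter
  rw [e, Finset.prod_insert (by decide), Finset.prod_insert (by decide),
    Finset.prod_insert (by decide), Finset.prod_singleton]
  have q0 : pdir (bqP 1) 8 = 0 ∧ pdir (bqP 1) 1 = 1 ∧ pdir (bqP 1) 10 = 1 ∧ pdir (bqP 1) 3 = 2 ∧
      pdir (bqP 1) 12 = 2 ∧ pdir (bqP 1) 5 = 3 ∧ pdir (bqP 1) 14 = 3 ∧ pdir (bqP 1) 7 = 0 := by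
    decide
  obtain ⟨h7, h0, h9, h2, h11, h4, h13, h6⟩ := q0
  have f0 : uD4.onFr 1 = true ∧ uD4.onFr 3 = true ∧ uD4.onFr 5 = true ∧
      uD4.onFr 7 = true := ⟨rfl, rfl, rfl, rfl⟩
  rw [f0.1, f0.2.1, f0.2.2.1, f0.2.2.2]
  show bj h hJ * (h ⟨pdir (bqP 1) 8, pdir (bqP 1) 1, true, false⟩ *
    (h ⟨pdir (bqP 1) 10, pdir (bqP 1) 3, true, false⟩ *
    (h ⟨pdir (bqP 1) 12, pdir (bqP 1) 5, true, false⟩ *
    h ⟨pdir (bqP 1) 14, pdir (bqP 1) 7, true, false⟩))) = _
  rw [h7, h0, h9, h2, h11, h4, h13, h6]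
  unfold g4 gK
  rw [show (0 : Fin 4) + 1 = 1 from rfl, show (1 : Fin 4) + 1 = 2 from rfl,
    show (2 : Fin 4) + 1 = 3 from rfl, show (3 : Fin 4) + 1 = 0 from rfl]
  ring

/-! ### consequences of the hypotheses -/

theorem Spec.pos (hS : Spec C h hJ) : 0 < C := lt_of_lt_of_le one_pos hS.one

theorem pos_left {x y : ℝ} (hx : 0 ≤ x) (h : 0 < x * y) : 0 < x := by
  refine lt_of_le_of_ne hx fun h1 => ?_
  rw [← h1, zero_mul] at h
  exact lt_irrefl _ h

theorem gK_nn (hS : Spec C h hJ) (b : Bool) (d : Fin 4) : 0 ≤ gK h b d := hS.nn _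

theorem gK_pos_fw (hS : Spec C h hJ) (hb : FW bc) (d : Fin 4) : 0 < gK h (frb bc) d := by
  have h1 := hS.sqL bc hb d
  rw [Pr_sq hb] at h1
  have h2 := lt_of_lt_of_le (inv_pos.2 hS.pos) h1
  refine pos_left (y := h ⟨d + 3, d, frb bc, true⟩ * (gK h (frb bc) (d + 1) *
    gK h (frb bc) (d + 2))) (gK_nn hS _ _) ?_
  calc _ < _ := h2
    _ = _ := by ring

theorem gK_pos (hS : Spec C h hJ) (b : Bool) (d : Fin 4) : 0 < gK h b d := by
  cases b
  · exact gK_pos_fw hS (Or.inr rfl) d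
  · exact gK_pos_fw hS (Or.inl rfl) d

theorem bj_pos (hS : Spec C h hJ) : 0 < bj h hJ := by
  have h1 := hS.d0L
  rw [Pr_d0] at h1
  exact pos_left (mul_nonneg (hS.nn _) hS.nnJ) (lt_of_lt_of_le (inv_pos.2 hS.pos) h1)

theorem g4_pos (hS : Spec C h hJ) (b : Bool) : 0 < g4 h b := by
  unfold g4
  have h0 := gK_pos hS b 0
  have h1 := gK_pos hS b 1
  have h2 := gK_pos hS b 2
  have h3 := gK_pos hS b 3
  positivity

/-- **Reflex corners.** -/
theorem reflex_fw (hS : Spec C h hJ) (hb : FW bc) (d : Fin 4) :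
    h ⟨d + 1, d, frb bc, false⟩ ≤ C ^ 2 / gK h (frb bc) d := by
  rw [le_div_iff₀ (gK_pos_fw hS hb d)]
  have h1 := hS.lU bc hb d
  rw [Pr_l hb] at h1
  have h2 := hS.sqL bc hb (d + 3)
  rw [Pr_sq hb] at h2
  rw [show d + 3 + 3 = d + 2 by rw [add_assoc]; rfl, show d + 3 + 1 = d by
    rw [add_assoc]; exact add_zero d, show d + 3 + 2 = d + 1 by rw [add_assoc]; rfl] at h2
  have hY : 0 ≤ gK h (frb bc) d * h ⟨d + 1, d, frb bc, false⟩ :=
    mul_nonneg (hS.nn _) (hS.nn _)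
  have h3 := (mul_le_mul_of_nonneg_right h2 hY).trans h1
  have h4 := mul_le_mul_of_nonneg_left h3 hS.pos.le
  have hC := hS.pos
  rw [← mul_assoc, mul_inv_cancel₀ hC.ne', one_mul] at h4
  calc h ⟨d + 1, d, frb bc, false⟩ * gK h (frb bc) d =
        gK h (frb bc) d * h ⟨d + 1, d, frb bc, false⟩ := mul_comm _ _
    _ ≤ C * C := h4
    _ = C ^ 2 := by ring

theorem reflex (hS : Spec C h hJ) (b : Bool) (d : Fin 4) :
    h ⟨d + 1, d, b, false⟩ ≤ C ^ 2 / gK h b d := by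
  cases b
  · exact reflex_fw hS (Or.inr rfl) d
  · exact reflex_fw hS (Or.inl rfl) d

theorem one_le_sq (hS : Spec C h hJ) : 1 ≤ C ^ 2 := one_le_pow₀ hS.one

/-- The hypothesis of the counting lemmas. -/
theorem fac {l : ℕ} {p : ZMod l → ℤ × ℤ} (hS : Spec C h hJ) {f : ℕ → Bool} {b : Bool} {x y : ℕ}
    (hf : ∀ i, x ≤ i → i < y → f i = b) :
    Fac p (gK h b) (C ^ 2) (fun i => h ⟨pdir p i, pdir p (i + 1), f i, false⟩) x y := by
  refine ⟨one_le_sq hS, gK_pos hS b, fun i => hS.nn _, fun i h1 h2 h3 => ?_, fun i h1 h2 h3 => ?_⟩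
  · show h ⟨pdir p i, pdir p (i + 1), f i, false⟩ ≤ _
    rw [hf i h1 h2, h3]
    exact le_refl _
  · show h ⟨pdir p i, pdir p (i + 1), f i, false⟩ ≤ _
    rw [hf i h1 h2, h3]
    exact reflex hS b _

/-! ### free or wired -/

theorem cnt_fw (hU : U.Ok) (hb : FW bc) (hbc : U.bc = bc) (hS : Spec C h hJ) :
    Pr U h hJ ≤ C ^ (2 * U.l + 1) := by
  classical
  have hp := hU.poly
  have hl := hp.1
  have hB : pdir U.p 0 = pdir U.p (U.l - 1) + 1 := by
    have := hU.bok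
    unfold Uni.BOk at this
    rw [hbc] at this
    rcases hb with rfl | rfl
    · exact this.2
    · exact this.2
  rw [Pr_fw hb hbc, Finset.prod_filter]
  obtain ⟨m, hm⟩ : ∃ m, U.l = m + 1 := ⟨U.l - 1, by omega⟩
  have e0 : (∏ i ∈ range U.l, if pdir U.p (i + U.l - 1) ≠ pdir U.p i then
      h ⟨pdir U.p (i + U.l - 1), pdir U.p i, frb bc, decide (i = 0)⟩ else 1) =
      (∏ i ∈ range (U.l - 1), (if pdir U.p (i + 1) ≠ pdir U.p i then
        h ⟨pdir U.p i, pdir U.p (i + 1), frb bc, false⟩ else 1)) *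
      h ⟨pdir U.p 0 + 3, pdir U.p 0, frb bc, true⟩ := by
    rw [show range U.l = range ((U.l - 1) + 1) by congr 1; omega, Finset.prod_range_succ']
    congr 1
    · refine Finset.prod_congr rfl fun i _ => ?_
      have e1 : pdir U.p (i + 1 + U.l - 1) = pdir U.p i := by
        rw [show i + 1 + U.l - 1 = i + U.l by omega]
        exact pdir_add _
      rw [e1]
      have e2 : decide (i + 1 = 0) = false := by simp
      rw [e2]
      by_cases h1 : pdir U.p (i + 1) = pdir U.p i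
      · rw [if_neg (by rw [h1]; simp), if_neg (by rw [h1]; simp)]
      · rw [if_pos (fun h => h1 h.symm), if_pos h1]
    · have e1 : pdir U.p (0 + U.l - 1) = pdir U.p 0 + 3 := by
        rw [zero_add, hB, add_assoc]
        exact (add_zero _).symm
      rw [e1, if_pos]
      · rfl
      · intro h1
        have h2 : (3 : Fin 4) = 0 := by
          have h3 : pdir U.p 0 + 3 = pdir U.p 0 + 0 := by rw [h1, add_zero]
          exact add_left_cancel h3
        exact absurd h2 (by decide)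
  rw [e0]
  have h1 := cnt_zero hp hU.enc hB (fac (p := U.p) (x := 0) (y := U.l - 1) hS
    (f := fun _ => frb bc) (b := frb bc) fun _ _ _ => rfl)
  have h2 := hS.sqU bc hb (pdir U.p 0)
  rw [Pr_sq hb] at h2
  have hn : 0 ≤ h ⟨pdir U.p 0 + 3, pdir U.p 0, frb bc, true⟩ := hS.nn _
  have hC := hS.pos
  calc _ ≤ (C ^ 2) ^ U.l * (gK h (frb bc) (pdir U.p 0) * gK h (frb bc) (pdir U.p 0 + 1) *
        gK h (frb bc) (pdir U.p 0 + 2)) * h ⟨pdir U.p 0 + 3, pdir U.p 0, frb bc, true⟩ :=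
        mul_le_mul_of_nonneg_right h1 hn
    _ = (C ^ 2) ^ U.l * (h ⟨pdir U.p 0 + 3, pdir U.p 0, frb bc, true⟩ *
        (gK h (frb bc) (pdir U.p 0) * gK h (frb bc) (pdir U.p 0 + 1) *
        gK h (frb bc) (pdir U.p 0 + 2))) := by ring
    _ ≤ (C ^ 2) ^ U.l * C := mul_le_mul_of_nonneg_left h2 (by positivity)
    _ = C ^ (2 * U.l + 1) := by rw [← pow_mul, ← pow_succ]

/-! ### Dobrushin -/

theorem zpow_bd {A : ℝ} (hC : 1 ≤ C) (h1 : C⁻¹ ≤ A) (h2 : A ≤ C) (w : ℤ) :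
    A ^ w ≤ C ^ w.natAbs := by
  have hC0 : 0 < C := lt_of_lt_of_le one_pos hC
  have hA : 0 < A := lt_of_lt_of_le (inv_pos.2 hC0) h1
  rcases Int.natAbs_eq w with h3 | h3
  · rw [h3, zpow_natCast, Int.natAbs_natCast]
    exact pow_le_pow_left₀ hA.le h2 _
  · rw [h3, zpow_neg, zpow_natCast, Int.natAbs_neg, Int.natAbs_natCast, ← inv_pow]
    exact pow_le_pow_left₀ (inv_pos.2 hA).le (inv_le_of_inv_le₀ hC0 h1) _

theorem cnt_dobU (hU : U.Ok) {ia : ℕ} {ta : ℝ} (hbc : U.bc = .dob ia ta) :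
    ∃ m : ℕ, ∀ (C : ℝ) (h : Kind → ℝ) (hJ : ℝ), Spec C h hJ → Pr U h hJ ≤ C ^ m := by
  classical
  have hp := hU.poly
  have hl := hp.1
  have hD : U.IsDob := by
    unfold Uni.IsDob
    rw [hbc]
    trivial
  have hB := hU.bok
  unfold Uni.BOk at hB
  rw [hbc] at hB
  obtain ⟨-, -, hia, hial, -, -, d0, d1⟩ := hB
  obtain ⟨w, hw⟩ := cnt_dob hp hU.enc hial.le (d1.trans d0.symm)
  refine ⟨4 * U.l + w.natAbs + (1 - w).natAbs, fun C h hJ hS => ?_⟩
  rw [Pr_dob hD, Finset.prod_filter]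
  have e0 : (∏ i ∈ range U.l, if pdir U.p (i + U.l - 1) ≠ pdir U.p i then
      h ⟨pdir U.p (i + U.l - 1), pdir U.p i, U.onFr i, false⟩ else 1) =
      ∏ i ∈ range U.l, (if pdir U.p (i + 1) ≠ pdir U.p i then
        h ⟨pdir U.p i, pdir U.p (i + 1), decide (i < ia), false⟩ else 1) := by
    rw [show range U.l = range ((U.l - 1) + 1) by congr 1; omega, Finset.prod_range_succ',
      Finset.prod_range_succ]
    congr 1
    · refine Finset.prod_congr rfl fun i _ => ?_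
      have e1 : pdir U.p (i + 1 + U.l - 1) = pdir U.p i := by
        rw [show i + 1 + U.l - 1 = i + U.l by omega]
        exact pdir_add _
      have e2 : U.onFr (i + 1) = decide (i < ia) := by
        unfold Uni.onFr
        rw [hbc]
        show decide (1 ≤ i + 1 ∧ i + 1 ≤ ia) = decide (i < ia)
        congr 1
        exact propext ⟨fun h => by omega, fun h => by omega⟩
      rw [e1, e2]
      by_cases h1 : pdir U.p (i + 1) = pdir U.p i
      · rw [if_neg (by rw [h1]; simp), if_neg (by rw [h1]; simp)]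
      · rw [if_pos (fun h => h1 h.symm), if_pos h1]
    · have e2 : U.onFr 0 = false := by
        unfold Uni.onFr
        rw [hbc]
        show decide (1 ≤ 0 ∧ 0 ≤ ia) = false
        exact decide_eq_false (by omega)
      have e3 : decide (U.l - 1 < ia) = false := decide_eq_false (by omega)
      have e4 : pdir U.p (U.l - 1 + 1) = pdir U.p 0 := by
        rw [show U.l - 1 + 1 = 0 + U.l by omega]
        exact pdir_add _
      rw [e2, e3, e4, zero_add]
      by_cases h1 : pdir U.p 0 = pdir U.p (U.l - 1)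
      · rw [if_neg (by rw [h1]; simp), if_neg (by rw [h1]; simp)]
      · rw [if_pos (fun h => h1 h.symm), if_pos h1]
  rw [e0, ← Finset.prod_range_mul_prod_Ico _ hial.le]
  have f1 := fac (p := U.p) (x := 0) (y := ia) hS (f := fun i => decide (i < ia)) (b := true)
    fun i _ hi => decide_eq_true hi
  have f2 := fac (p := U.p) (x := ia) (y := U.l) hS (f := fun i => decide (i < ia)) (b := false)
    fun i hi _ => decide_eq_false (by omega)
  obtain ⟨k1, k2⟩ := hw f1 f2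
  have hC := hS.pos
  have a1 := zpow_bd hS.one hS.d4L hS.d4U w
  have a2 := zpow_bd hS.one hS.d0L hS.d0U (1 - w)
  rw [Pr_d4] at a1
  rw [Pr_d0] at a2
  have b0 := bj_pos hS
  have g1 : 0 < g4 h true := g4_pos hS true
  have g2 : 0 < g4 h false := g4_pos hS false
  have n2 : 0 ≤ ∏ i ∈ Ico ia U.l, (if pdir U.p (i + 1) ≠ pdir U.p i then
      h ⟨pdir U.p i, pdir U.p (i + 1), decide (i < ia), false⟩ else 1) := by
    refine Finset.prod_nonneg fun i _ => ?_
    split_ifs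
    · exact hS.nn _
    · exact zero_le_one
  have eb : bj h hJ ^ w * bj h hJ ^ (1 - w) = bj h hJ := by
    rw [← zpow_add₀ b0.ne', show w + (1 - w) = 1 by ring, zpow_one]
  calc _ ≤ bj h hJ * (((C ^ 2) ^ U.l * g4 h true ^ w) * ((C ^ 2) ^ U.l * g4 h false ^ (1 - w))) := by
        refine mul_le_mul_of_nonneg_left ?_ b0.le
        exact mul_le_mul k1 k2 n2 (by positivity)
    _ = (C ^ 2) ^ U.l * (C ^ 2) ^ U.l * ((bj h hJ * g4 h true) ^ w *
          (bj h hJ * g4 h false) ^ (1 - w)) := by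
        rw [mul_zpow, mul_zpow]
        calc _ = (bj h hJ ^ w * bj h hJ ^ (1 - w)) * (((C ^ 2) ^ U.l * g4 h true ^ w) *
              ((C ^ 2) ^ U.l * g4 h false ^ (1 - w))) := by rw [eb]
          _ = _ := by ring
    _ ≤ (C ^ 2) ^ U.l * (C ^ 2) ^ U.l * (C ^ w.natAbs * C ^ (1 - w).natAbs) := by
        refine mul_le_mul_of_nonneg_left ?_ (by positivity)
        exact mul_le_mul a1 a2 (by positivity) (by positivity)
    _ = C ^ (4 * U.l + w.natAbs + (1 - w).natAbs) := by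
        rw [← pow_mul, ← pow_add, ← pow_add, ← pow_add]
        congr 1
        ring

/-- **Counting**: bounds for the special polygons give bounds for all of them. -/
theorem cnt_uni (hU : U.Ok) :
    ∃ m : ℕ, ∀ (C : ℝ) (h : Kind → ℝ) (hJ : ℝ), Spec C h hJ → Pr U h hJ ≤ C ^ m := by
  rcases hb : U.bc with _ | _ | ⟨ia, ta⟩
  · exact ⟨_, fun C h hJ hS => cnt_fw hU (Or.inl rfl) hb hS⟩
  · exact ⟨_, fun C h hJ hS => cnt_fw hU (Or.inr rfl) hb hS⟩
  · exact cnt_dobU hU hb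

end Vale.Agent.P167.H318.LC
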