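import Vale.Agent.P167.H318.LC.CntP

/-!
# P167, general `q`, block Q-LAM: existence of a convex corner; lifted directions with a given start
-/

namespace Vale.Agent.P167.H318.LC

open Finset Vale.Agent.P167.Top
open Vale.Agent.P167.Enl (vec_eq_mod)
open Vale.Agent.P167.E6 (IsPolygon Encloses dir face)
open Vale.Agent.P167.H825 (pdir)
open Vale.Agent.P167.H871 (Bd exists_bd)

variable {l : ℕ} {p : ZMod l → ℤ × ℤ} {S₀ : Finset (ℤ × ℤ)}

/-- **There is a convex corner.** -/
theorem exists_conv (hp : IsPolygon p) (hS : Encloses p S₀) :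
    ∃ c : ℕ, 1 ≤ c ∧ c ≤ l ∧ pdir p c = pdir p (c - 1) + 1 := by
  obtain ⟨u, h1, h2, h3⟩ := unit_dirs hp hS
  obtain ⟨c, hc, hc'⟩ : ∃ c, c < l ∧ u (c + 1) = u c + 1 := by
    by_contra hcon
    push Not at hcon
    have key : ∀ i, i ≤ l → u i ≤ u 0 := by
      intro i
      induction i with
      | zero => exact fun _ => le_rfl
      | succ i ih =>
        intro hi
        have a1 := ih (by omega)
        have a2 := hcon i (by omega)
        have a3 := h2 i
        rw [abs_le] at a3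
        omega
    have a1 := key l le_rfl
    have a2 := h3 0
    rw [zero_add] at a2
    omega
  refine ⟨c + 1, by omega, hc, ?_⟩
  have k1 := h1 c
  have k2 := h1 (c + 1)
  have b1 := (pdir p c).isLt
  have b2 := (pdir p (c + 1)).isLt
  rw [Nat.add_sub_cancel]
  apply Fin.ext
  rw [Fin.val_add]
  show _ = (_ + 1) % 4
  omega

/-- Shift of the lifted directions by full turns. -/
theorem bd_turns {D : Set (ℤ × ℤ)} {n : ℕ} {P : ℕ → ℤ × ℤ} {u : ℕ → ℤ} {σ : ℤ} (h : Bd D n P u σ)
    (m : ℤ) : Bd D n P (fun i => u i + 4 * m) σ where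
  step k := by
    rw [h.step k]
    congr 1
    exact vec_congr (by omega)
  turn k := by
    have := h.turn k
    rwa [show u (k + 1) + 4 * m - (u k + 4 * m) = u (k + 1) - u k by ring]
  per k := by
    show u (k + n) + 4 * m = u k + 4 * m + 4 * σ
    rw [h.per k]
    ring
  perP := h.perP
  inj := h.inj
  left k := by
    rw [H871.sqL_congr (show (u k + 4 * m) % 4 = u k % 4 by omega)]
    exact h.left k
  right k := by
    rw [H871.sqL_congr (show (u k + 4 * m - 1) % 4 = (u k - 1) % 4 by omega)]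
    exact h.right k

/-- Lifted directions with a given first one. -/
theorem exists_bd_at {N : ℕ} {q : ZMod N → ℤ × ℤ} {D : Finset (ℤ × ℤ)} (hq : IsPolygon q)
    (hD : Encloses q D) {a : ℤ} (ha : q 1 = q 0 + vec a) :
    ∃ τ : ℕ → ℤ, Bd (D : Set (ℤ × ℤ)) N (fun i => q (i : ZMod N)) τ 1 ∧ τ 0 = a := by
  obtain ⟨u, hu⟩ := exists_bd hq hD
  have h1 := hu.step 0
  have e0 : q ((0 : ℕ) : ZMod N) = q 0 := by rw [Nat.cast_zero]
  have e1 : q ((0 + 1 : ℕ) : ZMod N) = q 1 := by rw [zero_add, Nat.cast_one]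
  rw [e0, e1, ha] at h1
  have h2 := vec_eq_mod (add_left_cancel h1)
  obtain ⟨m, hm⟩ : ∃ m : ℤ, a = u 0 + 4 * m := ⟨(a - u 0) / 4, by omega⟩
  exact ⟨_, bd_turns hu m, hm.symm⟩

end Vale.Agent.P167.H318.LC
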