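import Vale.Agent.P167.H318.LC.Uni
import Vale.Agent.P167.H601.LG.Wt

/-!
# P167, general `q`, block Q-LAM (LC): [LP], the weights of the special polygons are nonnegative
-/

namespace Vale.Agent.P167.H318.LC

open Finset Filter Vale.Agent.P167.BR
open Vale.Agent.P167.Enl (PN qN qN_nat)
open Vale.Agent.P167.E6 (IsPolygon Encloses dir face)
open Vale.Agent.P167.H825 (enl pdir ptau)
open Vale.Agent.P167.H825.Q (Bc)
open Vale.Agent.P167.QX (lo hi)
open Vale.Agent.P167.H718 (Dob IsCl)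
open Vale.Agent.P167.H718.Lam
open Vale.Agent.P167.H601.LG (wJ wJ_lp wJ_fw2 wJ_cl wJ_ot Kt feet exists_low_wJ sin_pos' sin2_pos)

variable {θ : ℝ} {U : Uni} {n : ℕ} {a : ℤ × ℤ} {τ : ℕ → ℤ} {η : Cfg}

theorem wI_eq {N : ℕ} (θ β : ℝ) (q : ZMod N → ℤ × ℤ) (D : Finset (ℤ × ℤ)) (k : ℕ) (τ : ℕ → ℤ)
    (A : Finset Ed) : wI θ β q D k τ A = wJ θ β q D k τ A := rfl

theorem tp_bounds (hU : U.Ok) : 0 ≤ U.tp ∧ U.tp < 1 := by
  have h := hU.bok
  unfold Uni.BOk at h
  split at h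
  · exact ⟨h.1.le, h.2.1⟩
  · rw [h.1]
    norm_num

theorem t_lt (hU : U.Ok) (hn : 0 < n) : U.t n < n := by
  obtain ⟨h1, h2⟩ := tp_bounds hU
  have hn' : (0 : ℝ) < n := by exact_mod_cast hn
  unfold Uni.t
  rw [Nat.floor_lt (by positivity)]
  nlinarith

theorem t_zero (hU : U.Ok) (h : ¬ U.IsDob) : U.t n = 0 := by
  have h1 := hU.bok
  unfold Uni.BOk at h1
  unfold Uni.IsDob at h
  split at h1
  · rename_i h2
    rw [h2] at h
    exact absurd trivial h
  · unfold Uni.t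
    rw [h1.1, zero_mul, Nat.floor_zero]

/-- The lifted directions. -/
theorem tau_eq (hU : U.Ok) (hn : 0 < n) (h : U.St n a τ η) (k : ℕ) :
    τ k = τ 0 + ptau U.p ((k + U.t n) / n) := by
  have hl : NeZero U.l := ⟨by have := hU.poly.1; omega⟩
  refine bd_eq (a := 0) hn hU.poly (fun j => ?_) (t_lt hU hn) h.bd k
  rw [add_zero]
  exact qN_nat hn _ j

/-- **[LP]** from the bounds of the turning. -/
theorem lp_of (h0 : 0 < θ) (h1 : θ ≤ Real.pi / 3) (hU : U.Ok)
    (hF : ¬ U.IsDob → ∀ x y, x ≤ y → y < U.l → -1 ≤ ptau U.p y - ptau U.p x ∧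
      ptau U.p y - ptau U.p x ≤ 3)
    (hD : U.IsDob → ∀ x y, x ≤ y → y ≤ U.l → 0 ≤ ptau U.p y - ptau U.p x ∧
      ptau U.p y - ptau U.p x ≤ 4) : LP θ ((θ - Real.pi) / 2) U := by
  have hpi := Real.pi_pos
  have hs1 := sin_pos' h0 h1
  have hs2 := sin2_pos h0 h1
  obtain ⟨c1, hc1, hc11, hlow⟩ := exists_low_wJ h0 h1
  -- the strands between the arcs
  obtain ⟨c2, hc2, hfw⟩ : ∃ c : ℝ, 0 < c ∧ ∀ K : ℤ, 1 ≤ K → K ≤ 4 →
      c ≤ Real.sin (θ / 2 * K) / Real.sin θ := by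
    refine ⟨min (min (Real.sin (θ / 2) / Real.sin θ) (Real.sin θ / Real.sin θ))
      (min (Real.sin (3 * θ / 2) / Real.sin θ) (Real.sin (2 * θ) / Real.sin θ)), ?_, ?_⟩
    · have e1 : 0 < Real.sin (θ / 2) := Real.sin_pos_of_pos_of_lt_pi (by linarith) (by linarith)
      have e2 : 0 < Real.sin (3 * θ / 2) := Real.sin_pos_of_pos_of_lt_pi (by linarith) (by linarith)
      have k1 : 0 < Real.sin (θ / 2) / Real.sin θ := by positivity
      have k2 : 0 < Real.sin θ / Real.sin θ := by positivity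
      have k3 : 0 < Real.sin (3 * θ / 2) / Real.sin θ := by positivity
      have k4 : 0 < Real.sin (2 * θ) / Real.sin θ := by positivity
      exact lt_min (lt_min k1 k2) (lt_min k3 k4)
    · intro K hK1 hK4
      have hK : K = 1 ∨ K = 2 ∨ K = 3 ∨ K = 4 := by omega
      rcases hK with rfl | rfl | rfl | rfl
      · refine ((min_le_left _ _).trans (min_le_left _ _)).trans (le_of_eq ?_)
        norm_num
      · refine ((min_le_left _ _).trans (min_le_right _ _)).trans (le_of_eq ?_)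
        congr 2
        push_cast
        ring
      · refine ((min_le_right _ _).trans (min_le_left _ _)).trans (le_of_eq ?_)
        congr 2
        push_cast
        ring
      · refine ((min_le_right _ _).trans (min_le_right _ _)).trans (le_of_eq ?_)
        congr 2
        push_cast
        ring
  -- the strands around the whole arc
  obtain ⟨c3, hc3, hot⟩ : ∃ c : ℝ, 0 < c ∧ (c ≤ Real.sin (3 * θ) / Real.sin θ ∨
      Real.sin (3 * θ) / Real.sin θ = 0) := by
    rcases h1.lt_or_eq with h | h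
    · have e1 : 0 < Real.sin (3 * θ) := Real.sin_pos_of_pos_of_lt_pi (by linarith) (by linarith)
      exact ⟨_, div_pos e1 hs1, Or.inl le_rfl⟩
    · refine ⟨1, one_pos, Or.inr ?_⟩
      rw [h, show 3 * (Real.pi / 3) = Real.pi by ring, Real.sin_pi, zero_div]
  have hcos : 0 < Real.cos θ := Real.cos_pos_of_mem_Ioo ⟨by linarith, by linarith⟩
  refine ⟨min (min c1 c2) c3, lt_min (lt_min hc1 hc2) hc3, ?_⟩
  filter_upwards [Filter.eventually_gt_atTop 0] with n hn a τ η hSt ω A hA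
  have hl : NeZero U.l := ⟨by have := hU.poly.1; omega⟩
  have hq : IsPolygon (U.qa n a) := H718.poly_add (Enl.isPolygon_qN hn hU.poly _) a
  have hE : Encloses (U.qa n a) (U.Da n a) :=
    H718.encl_add (Enl.encloses_qN hn hU.poly hU.enc _) a
  have hm1 : min (min c1 c2) c3 ≤ c1 := (min_le_left _ _).trans (min_le_left _ _)
  have hm2 : min (min c1 c2) c3 ≤ c2 := (min_le_left _ _).trans (min_le_right _ _)
  have hm3 : min (min c1 c2) c3 ≤ c3 := min_le_right _ _
  show _ ≤ wJ θ ((θ - Real.pi) / 2) (U.qa n a) (U.Da n a) (U.k n) τ A ∨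
    (U.IsDob ∧ wJ θ ((θ - Real.pi) / 2) (U.qa n a) (U.Da n a) (U.k n) τ A = 0)
  by_cases hlp : IsLp (U.Da n a) A
  · left
    rw [wJ_lp hq hE hA hlp hcos.ne']
    exact hm1.trans hc11
  obtain ⟨f1, f2, -, -⟩ := feet hq hE hA hlp
  have eK : Kt (U.qa n a) τ A = ptau U.p ((hi (U.qa n a) A + U.t n) / n) -
      ptau U.p ((lo (U.qa n a) A + U.t n) / n) := by
    unfold Kt
    rw [tau_eq hU hn hSt (hi (U.qa n a) A), tau_eq hU hn hSt (lo (U.qa n a) A)]
    ring
  have ht := t_lt hU hn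
  have hdiv : (lo (U.qa n a) A + U.t n) / n ≤ (hi (U.qa n a) A + U.t n) / n :=
    Nat.div_le_div_right (by omega)
  by_cases hdob : U.IsDob
  · have hy : (hi (U.qa n a) A + U.t n) / n ≤ U.l := by
      rw [← Nat.lt_succ_iff, Nat.div_lt_iff_lt_mul hn, Nat.succ_mul]
      omega
    obtain ⟨g1, g2⟩ := hD hdob _ _ hdiv hy
    rw [← eK] at g1 g2
    by_cases hFw : lo (U.qa n a) A < U.k n ∧ U.k n ≤ hi (U.qa n a) A
    · rw [wJ_fw2 rfl hlp hFw]
      rcases g1.lt_or_eq with g3 | g3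
      · exact Or.inl (hm2.trans (hfw _ g3 g2))
      · right
        refine ⟨hdob, ?_⟩
        rw [← g3]
        simp
    · rcases g2.lt_or_eq with g3 | g3
      · exact Or.inl (hm1.trans (hlow hq hE hA hFw (by omega) (by omega)))
      · by_cases hC : IsCl (U.Da n a) (U.qa n a) (U.k n) A
        · right
          refine ⟨hdob, ?_⟩
          rw [wJ_cl hlp f1.le hFw hC, g3]
          have : 2 * θ - θ / 2 * ((4 : ℤ) : ℝ) = 0 := by push_cast; ring
          rw [this, Real.sin_zero, zero_div]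
        · rw [wJ_ot hlp f1.le hFw hC, g3]
          have : θ + θ / 2 * ((4 : ℤ) : ℝ) = 3 * θ := by push_cast; ring
          rw [this]
          rcases hot with h | h
          · exact Or.inl (hm3.trans h)
          · exact Or.inr ⟨hdob, h⟩
  · left
    have ht0 : U.t n = 0 := t_zero hU hdob
    have hy : (hi (U.qa n a) A + U.t n) / n < U.l := by
      rw [ht0, add_zero]
      exact (Nat.div_lt_iff_lt_mul hn).2 f2
    obtain ⟨g1, g2⟩ := hF hdob _ _ hdiv hy
    rw [← eK] at g1 g2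
    have hFw : ¬ (lo (U.qa n a) A < U.k n ∧ U.k n ≤ hi (U.qa n a) A) := by
      have h3 : U.k n = U.l * n ∨ U.k n = 0 := by
        unfold Uni.k
        unfold Uni.IsDob at hdob
        cases hbc : U.bc with
        | free => exact Or.inl rfl
        | wired => exact Or.inr rfl
        | dob ia ta => rw [hbc] at hdob; exact absurd trivial hdob
      omega
    exact hm1.trans (hlow hq hE hA hFw g1 g2)

/-! ### the special polygons -/

theorem fw_not {bc : Bc} (h : FW bc) {l : ℕ} {p : ZMod l → ℤ × ℤ} {S : Finset (ℤ × ℤ)} {tp : ℝ} :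
    ¬ (⟨l, p, S, bc, tp⟩ : Uni).IsDob := by
  rcases h with rfl | rfl <;> exact id

theorem lp_sq (h0 : 0 < θ) (h1 : θ ≤ Real.pi / 3) {bc : Bc} (h : FW bc) (s : Fin 4) :
    LP θ ((θ - Real.pi) / 2) (uSq bc s) := by
  refine lp_of h0 h1 (uSq_ok h s) (fun _ x y hxy hy => ?_) fun hd => absurd hd (fw_not h)
  have hy' : y < 4 := hy
  show -1 ≤ ptau (sqP s) y - ptau (sqP s) x ∧ ptau (sqP s) y - ptau (sqP s) x ≤ 3
  rw [sq_ptau s y (by omega), sq_ptau s x (by omega)]
  omega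

theorem lp_l (h0 : 0 < θ) (h1 : θ ≤ Real.pi / 3) {bc : Bc} (h : FW bc) (d : Fin 4) :
    LP θ ((θ - Real.pi) / 2) (uL bc d) := by
  refine lp_of h0 h1 (uL_ok h d) (fun _ x y hxy hy => ?_) fun hd => absurd hd (fw_not h)
  have hy' : y < 8 := hy
  show -1 ≤ ptau (lP d) y - ptau (lP d) x ∧ ptau (lP d) y - ptau (lP d) x ≤ 3
  rw [l_ptau d y (by omega), l_ptau d x (by omega)]
  exact lT_bounds x (by omega) y hy' hxy

theorem bT0_bounds : ∀ i < 9, ∀ j < 9, i ≤ j → 0 ≤ bT0 j - bT0 i ∧ bT0 j - bT0 i ≤ 4 := by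
  decide

theorem bT1_bounds : ∀ i < 9, ∀ j < 9, i ≤ j → 0 ≤ bT1 j - bT1 i ∧ bT1 j - bT1 i ≤ 4 := by
  decide

theorem lp_d0 (h0 : 0 < θ) (h1 : θ ≤ Real.pi / 3) : LP θ ((θ - Real.pi) / 2) uD0 := by
  refine lp_of h0 h1 uD0_ok (fun h => absurd trivial h) fun _ x y hxy hy => ?_
  have hy' : y ≤ 8 := hy
  show 0 ≤ ptau (bqP 0) y - ptau (bqP 0) x ∧ ptau (bqP 0) y - ptau (bqP 0) x ≤ 4
  rw [bq_ptau0 y (by omega), bq_ptau0 x (by omega)]
  exact bT0_bounds x (by omega) y (by omega) hxy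

theorem lp_d4 (h0 : 0 < θ) (h1 : θ ≤ Real.pi / 3) : LP θ ((θ - Real.pi) / 2) uD4 := by
  refine lp_of h0 h1 uD4_ok (fun h => absurd trivial h) fun _ x y hxy hy => ?_
  have hy' : y ≤ 8 := hy
  show 0 ≤ ptau (bqP 1) y - ptau (bqP 1) x ∧ ptau (bqP 1) y - ptau (bqP 1) x ≤ 4
  rw [bq_ptau1 y (by omega), bq_ptau1 x (by omega)]
  exact bT1_bounds x (by omega) y (by omega) hxy

end Vale.Agent.P167.H318.LC
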