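import Vale.Agent.P167.XDL.Enl2

/-!
# P167, general `q`, block Q-LAM (LC): unit squares and L shapes

`sqP s`: the unit square, the index `0` is the corner with the outgoing direction `s`.
`lP d`: the union of three unit squares with the reflex corner `d + 1 → d`; the index `0` is the convex
corner opposite to the reflex corner.
-/

namespace Vale.Agent.P167.H318.LC

open Vale.Agent.P167.E6 (IsPolygon Encloses dir face)
open Vale.Agent.P167.H825 (enl pdir ptau)

/-- A finite criterion. -/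
theorem encl_of_check {n : ℕ} {p : ZMod n → ℤ × ℤ} {S : Finset (ℤ × ℤ)}
    (h1 : ∀ (i : ZMod n) (r : Fin 4), p (i + 1) = p i + dir r →
      face (p i) r ∈ S ∧ face (p i) (r - 1) ∉ S)
    (h2 : ∀ f ∈ S, ∀ r : Fin 4, face (f - face 0 r) (r - 1) ∉ S →
      ∃ i, p i = f - face 0 r ∧ p (i + 1) = f - face 0 r + dir r) : Encloses p S := by
  intro v r
  constructor
  · rintro ⟨i, rfl, hi⟩
    exact h1 i r hi
  · rintro ⟨h3, h4⟩
    have e : face v r - face 0 r = v := by
      unfold face
      rw [zero_add]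
      exact add_sub_cancel_right _ _
    obtain ⟨i, h5, h6⟩ := h2 (face v r) h3 r (by rw [e]; exact h4)
    rw [e] at h5 h6
    exact ⟨i, h5, h6⟩

/-- The unit square, the base is the corner with outgoing direction `s`. -/
def sqP (s : Fin 4) : ZMod 4 → ℤ × ℤ := fun (i : Fin 4) =>
  (![(0, 0), (1, 0), (1, 1), (0, 1)] : Fin 4 → ℤ × ℤ) (i + s)

/-- The square. -/
def sqS : Finset (ℤ × ℤ) := {(0, 0)}

theorem sq_poly (s : Fin 4) : IsPolygon (sqP s) := by
  refine ⟨by norm_num, ?_, ?_⟩
  · revert s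
    unfold Function.Injective
    decide
  · revert s
    decide

theorem sq_encl (s : Fin 4) : Encloses (sqP s) sqS := by
  refine encl_of_check ?_ ?_
  · revert s
    decide
  · revert s
    decide

/-- The sites of the L shape. -/
def lV : Fin 4 → Fin 8 → ℤ × ℤ := ![
  ![(0, 0), (0, -1), (0, -2), (1, -2), (1, -1), (2, -1), (2, 0), (1, 0)],
  ![(0, 0), (1, 0), (2, 0), (2, 1), (1, 1), (1, 2), (0, 2), (0, 1)],
  ![(0, 0), (0, 1), (0, 2), (-1, 2), (-1, 1), (-2, 1), (-2, 0), (-1, 0)],
  ![(0, 0), (-1, 0), (-2, 0), (-2, -1), (-1, -1), (-1, -2), (0, -2), (0, -1)]]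

/-- The L shape with the reflex corner `d + 1 → d`. -/
def lP (d : Fin 4) : ZMod 8 → ℤ × ℤ := lV d

/-- Its squares. -/
def lS : Fin 4 → Finset (ℤ × ℤ) := ![{(0, -1), (0, -2), (1, -1)}, {(0, 0), (1, 0), (0, 1)},
  {(-1, 0), (-1, 1), (-2, 0)}, {(-1, -1), (-2, -1), (-1, -2)}]

theorem l_poly (d : Fin 4) : IsPolygon (lP d) := by
  refine ⟨by norm_num, ?_, ?_⟩
  · revert d
    unfold Function.Injective
    decide
  · revert d
    decide

theorem l_encl (d : Fin 4) : Encloses (lP d) (lS d) := by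
  refine encl_of_check ?_ ?_
  · revert d
    decide
  · revert d
    decide

/-! ### Directions -/

theorem sq_pdir (s : Fin 4) : ∀ i < 5, pdir (sqP s) i = s + (Fin.ofNat 4 i) := by
  revert s
  decide

theorem sq_ptau (s : Fin 4) : ∀ i < 5, ptau (sqP s) i = i := by
  revert s
  decide

/-- The turning of the L shapes. -/
def lT : ℕ → ℤ := fun i => ([0, 0, 1, 2, 1, 2, 3, 3, 4].getD i 0)

theorem l_ptau (d : Fin 4) : ∀ i < 9, ptau (lP d) i = lT i := by
  revert d
  decide

theorem l_pdir (d : Fin 4) : pdir (lP d) 0 = d - 1 := by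
  revert d
  decide

end Vale.Agent.P167.H318.LC
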