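import Vale.Agent.P167.H318.LC.Poly

/-!
# P167, general `q`, block Q-LAM (LC): lifted directions of the enlargements of the unit shapes
-/

namespace Vale.Agent.P167.H318.LC

open Vale.Agent.P167.Top
open Vale.Agent.P167.Enl
open Vale.Agent.P167.E6 (IsPolygon Encloses dir face)
open Vale.Agent.P167.H825 (enl pdir ptau tn)
open Vale.Agent.P167.H871 (Bd vec_fin)

variable {l N : ℕ} {p : ZMod l → ℤ × ℤ} {q : ZMod N → ℤ × ℤ} {n t k : ℕ} {a : ℤ × ℤ} {u : ℕ → ℤ}
  {D : Set (ℤ × ℤ)}

/-- **The lifted directions of a translated enlargement.** -/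
theorem bd_eq (hn : 0 < n) (hp : IsPolygon p) (hs : ∀ j : ℕ, q (j : ZMod N) = PN p n (j + t) + a)
    (ht : t < n) (hu : Bd D N (fun k => q (k : ZMod N)) u 1) (k : ℕ) :
    u k = u 0 + ptau p ((k + t) / n) := by
  have hmod : ∀ k, u k % 4 = (((pdir p ((k + t) / n)).val : ℕ) : ℤ) := by
    intro k
    have h2 := hu.step k
    rw [hs, hs, show k + 1 + t = k + t + 1 by ring, PN_succ hn hp] at h2
    have h3 : PN p n (k + t) + a + dir (pdir p ((k + t) / n)) =
        PN p n (k + t) + a + vec (u k) := by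
      rw [← h2]; ring
    have h4 := add_left_cancel h3
    rw [← vec_fin] at h4
    have h5 := vec_eq_mod h4
    have h6 := (pdir p ((k + t) / n)).isLt
    omega
  induction k with
  | zero =>
    rw [zero_add, Nat.div_eq_of_lt ht]
    show u 0 = u 0 + 0
    ring
  | succ k ih =>
    have h1 := hu.turn k
    have h2 := hmod k
    have h3 := hmod (k + 1)
    rw [abs_le] at h1
    by_cases hc : (k + 1 + t) / n = (k + t) / n
    · rw [hc] at h3 ⊢
      omega
    · have hc' : (k + 1 + t) / n = (k + t) / n + 1 := by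
        have h4 : (k + t) / n ≤ (k + 1 + t) / n := Nat.div_le_div_right (by omega)
        have h5 : (k + 1 + t) / n ≤ (k + t) / n + 1 := by
          rw [Nat.div_le_iff_le_mul_add_pred hn]
          have := Nat.div_add_mod (k + t) n
          have := Nat.mod_lt (k + t) hn
          rw [Nat.mul_add]
          omega
        omega
      rw [hc'] at h3 ⊢
      show u (k + 1) = u 0 + (ptau p ((k + t) / n) + tn (pdir p ((k + t) / n))
        (pdir p ((k + t) / n + 1)))
      have h6 : tn (pdir p ((k + t) / n)) (pdir p ((k + t) / n + 1)) = u (k + 1) - u k := by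
        generalize pdir p ((k + t) / n) = a at h2
        generalize pdir p ((k + t) / n + 1) = b at h3
        unfold tn
        fin_cases a <;> fin_cases b <;> simp at h2 h3 ⊢ <;> omega
      omega

theorem div_range {x y L : ℕ} (hn : 0 < n) (hxy : x ≤ y) (hy : y < L * n) :
    x / n ≤ y / n ∧ y / n < L :=
  ⟨Nat.div_le_div_right hxy, (Nat.div_lt_iff_lt_mul hn).2 hy⟩

/-- **Square, base at a corner.** -/
theorem sq_bounds (hn : 0 < n) {s : Fin 4} {q : ZMod N → ℤ × ℤ}
    (hs : ∀ j : ℕ, q (j : ZMod N) = PN (sqP s) n (j + 0) + a)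
    (hu : Bd D N (fun k => q (k : ZMod N)) u 1) {x y : ℕ} (hxy : x ≤ y) (hy : y < 4 * n) :
    0 ≤ u y - u x ∧ u y - u x ≤ 3 := by
  have h1 := bd_eq hn (sq_poly s) hs hn hu
  obtain ⟨h2, h3⟩ := div_range hn hxy hy
  rw [h1 y, h1 x, add_zero, add_zero, sq_ptau s _ (by omega), sq_ptau s _ (by omega)]
  generalize y / n = e at h2 h3
  generalize x / n = f at h2
  omega

/-- **Square, base on a side.** -/
theorem sq_bounds_flat (hn : 0 < n) (ht : t < n) {s : Fin 4} {q : ZMod N → ℤ × ℤ}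
    (hs : ∀ j : ℕ, q (j : ZMod N) = PN (sqP s) n (j + t) + a)
    (hu : Bd D N (fun k => q (k : ZMod N)) u 1) {x y : ℕ} (hxy : x ≤ y) (hy : y < 4 * n) :
    0 ≤ u y - u x ∧ u y - u x ≤ 4 := by
  have h1 := bd_eq hn (sq_poly s) hs ht hu
  obtain ⟨h2, h3⟩ := div_range (L := 5) hn (show x + t ≤ y + t by omega) (by omega)
  rw [h1 y, h1 x, sq_ptau s _ (by omega), sq_ptau s _ (by omega)]
  generalize (y + t) / n = e at h2 h3
  generalize (x + t) / n = f at h2
  omega

theorem lT_bounds : ∀ i < 8, ∀ j < 8, i ≤ j → -1 ≤ lT j - lT i ∧ lT j - lT i ≤ 3 := by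
  decide

/-- **L shape.** -/
theorem l_bounds (hn : 0 < n) {d : Fin 4} {q : ZMod N → ℤ × ℤ}
    (hs : ∀ j : ℕ, q (j : ZMod N) = PN (lP d) n (j + 0) + a)
    (hu : Bd D N (fun k => q (k : ZMod N)) u 1) {x y : ℕ} (hxy : x ≤ y) (hy : y < 8 * n) :
    -1 ≤ u y - u x ∧ u y - u x ≤ 3 := by
  have h1 := bd_eq hn (l_poly d) hs hn hu
  obtain ⟨h2, h3⟩ := div_range hn hxy hy
  rw [h1 y, h1 x, add_zero, add_zero, l_ptau d _ (by omega), l_ptau d _ (by omega)]
  have := lT_bounds (x / n) (by omega) (y / n) h3 h2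
  constructor <;> linarith [this.1, this.2]

end Vale.Agent.P167.H318.LC
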