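import Vale.Agent.P167.H718.Lam.Cut
import Vale.Agent.P167.H318.LC.Turn

/-!
# P167, general `q`, block Q-LAM (LC): the special indices of the enlargements
-/

namespace Vale.Agent.P167.H318.LC

open Finset Vale.Agent.P167.Top
open Vale.Agent.P167.Enl (PN qN qN_nat vec_eq_mod PN_succ)
open Vale.Agent.P167.E6 (IsPolygon Encloses dir face)
open Vale.Agent.P167.H825 (enl pdir ptau tn)
open Vale.Agent.P167.H871 (Bd vec_fin)
open Vale.Agent.P167.H718.Lam (enP Pg)
open Vale.Agent.P167.H601.LG (Spe)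

variable {l n s k : ℕ} {p : ZMod l → ℤ × ℤ} {S₀ : Finset (ℤ × ℤ)} {a : ℤ × ℤ} {τ : ℕ → ℤ} {η : Cfg}

/-- The boundary hypothesis. -/
abbrev HB (p : ZMod l → ℤ × ℤ) (S₀ : Finset (ℤ × ℤ)) (n s : ℕ) (a : ℤ × ℤ) (k : ℕ) (τ : ℕ → ℤ)
    (η : Cfg) : Prop :=
  H871.Bd ((enP p S₀ n s a k τ η).D : Set (ℤ × ℤ)) (l * n)
    (fun i => (enP p S₀ n s a k τ η).q (i : ZMod (l * n))) τ 1

theorem q_nat (hn : 0 < n) (hp : IsPolygon p) (j : ℕ) :
    (enP p S₀ n s a k τ η).q (j : ZMod (l * n)) = PN p n (j + s) + a := by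
  have : NeZero l := ⟨by have := hp.1; omega⟩
  show qN p n s (j : ZMod (l * n)) + a = _
  rw [qN_nat hn]

/-- (d) The direction of the step `j`, modulo `4`. -/
theorem tau_mod (hn : 0 < n) (hp : IsPolygon p) (hu : HB p S₀ n s a k τ η) (j : ℕ) :
    τ j % 4 = (((pdir p ((j + s) / n)).val : ℕ) : ℤ) := by
  have h2 := hu.step j
  rw [q_nat hn hp, q_nat hn hp, show j + 1 + s = j + s + 1 by ring, PN_succ hn hp] at h2
  have h3 : PN p n (j + s) + a + dir (pdir p ((j + s) / n)) = PN p n (j + s) + a + vec (τ j) := by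
    rw [← h2]; ring
  have h4 := add_left_cancel h3
  rw [← vec_fin] at h4
  have h5 := vec_eq_mod h4
  have h6 := (pdir p ((j + s) / n)).isLt
  omega

/-- (d) The direction of the step `j`. -/
theorem vec_tau (hn : 0 < n) (hp : IsPolygon p) (hu : HB p S₀ n s a k τ η) (j : ℕ) :
    vec (τ j) = dir (pdir p ((j + s) / n)) := by
  have h2 := hu.step j
  rw [q_nat hn hp, q_nat hn hp, show j + 1 + s = j + s + 1 by ring, PN_succ hn hp] at h2
  have h3 : PN p n (j + s) + a + dir (pdir p ((j + s) / n)) = PN p n (j + s) + a + vec (τ j) := by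
    rw [← h2]; ring
  exact (add_left_cancel h3).symm

/-- The lifted directions. -/
theorem tau_ptau (hn : 0 < n) (hp : IsPolygon p) (hs : s < n) (hu : HB p S₀ n s a k τ η) (j : ℕ) :
    τ j = τ 0 + ptau p ((j + s) / n) :=
  bd_eq hn hp (fun j => q_nat (S₀ := S₀) (k := k) (τ := τ) (η := η) hn hp j) hs hu j

/-- The directions change where the lifted directions change. -/
theorem ne_iff (hn : 0 < n) (hp : IsPolygon p) (hu : HB p S₀ n s a k τ η) {j : ℕ} (hj : 0 < j) :
    τ j ≠ τ (j - 1) ↔ pdir p ((j + s) / n) ≠ pdir p ((j - 1 + s) / n) := by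
  have h1 := tau_mod hn hp hu j
  have h2 := tau_mod hn hp hu (j - 1)
  have h3 := hu.turn (j - 1)
  rw [show j - 1 + 1 = j by omega, abs_le] at h3
  constructor
  · intro h h4
    rw [h4] at h1
    omega
  · intro h h4
    apply h
    rw [h4] at h1
    apply Fin.ext
    omega

/-- (d) The turning at the corner. -/
theorem tau_corner (hn : 0 < n) (hp : IsPolygon p) (hs : s < n) (hu : HB p S₀ n s a k τ η) (i : ℕ) :
    τ ((i + 1) * n - s) - τ ((i + 1) * n - s - 1) = tn (pdir p i) (pdir p (i + 1)) := by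
  have hs' : s < (i + 1) * n := by nlinarith
  rw [tau_ptau hn hp hs hu ((i + 1) * n - s), tau_ptau hn hp hs hu ((i + 1) * n - s - 1)]
  have e1 : ((i + 1) * n - s + s) / n = i + 1 := by
    rw [Nat.sub_add_cancel hs'.le, Nat.mul_div_cancel _ hn]
  have e2 : ((i + 1) * n - s - 1 + s) / n = i := by
    rw [show (i + 1) * n - s - 1 + s = (i + 1) * n - 1 by omega]
    have h1 : (i + 1) * n = i * n + n := by ring
    rw [h1, Nat.div_eq_iff hn]
    omega
  rw [e1, e2]
  show _ + (ptau p i + tn (pdir p i) (pdir p (i + 1))) - _ = _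
  ring

/-- Corners, in terms of the indices. -/
theorem corner_iff (hn : 0 < n) (hp : IsPolygon p) (hs : s < n) (hu : HB p S₀ n s a k τ η) {j : ℕ}
    (hj : 0 < j) : τ j ≠ τ (j - 1) ↔ ∃ i, j = (i + 1) * n - s ∧ pdir p (i + 1) ≠ pdir p i := by
  rw [ne_iff hn hp hu hj]
  constructor
  · intro h
    have h1 : n ∣ j + s := by
      by_contra hc
      apply h
      have h2 : (j + s) / n = (j - 1 + s) / n := by
        have h3 : j + s = j - 1 + s + 1 := by omega
        rw [h3, Nat.succ_div, if_neg (by rwa [← h3]), add_zero]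
      rw [h2]
    obtain ⟨c, hc⟩ := h1
    have hc0 : 0 < c := by
      rcases Nat.eq_zero_or_pos c with h2 | h2
      · rw [h2, mul_zero] at hc
        omega
      · exact h2
    obtain ⟨i, rfl⟩ := Nat.exists_eq_add_of_lt hc0
    rw [zero_add] at hc
    refine ⟨i, by rw [mul_comm]; omega, ?_⟩
    have e1 : (j + s) / n = i + 1 := by
      rw [hc, Nat.mul_div_cancel_left _ hn]
    have e2 : (j - 1 + s) / n = i := by
      rw [show j - 1 + s = n * (i + 1) - 1 by omega]
      have h1 : n * (i + 1) = i * n + n := by ring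
      rw [h1, Nat.div_eq_iff hn]
      omega
    rwa [e1, e2] at h
  · rintro ⟨i, rfl, h⟩
    have hs' : s < (i + 1) * n := by nlinarith
    have e1 : ((i + 1) * n - s + s) / n = i + 1 := by
      rw [Nat.sub_add_cancel hs'.le, Nat.mul_div_cancel _ hn]
    have e2 : ((i + 1) * n - s - 1 + s) / n = i := by
      rw [show (i + 1) * n - s - 1 + s = (i + 1) * n - 1 by omega]
      have h1 : (i + 1) * n = i * n + n := by ring
      rw [h1, Nat.div_eq_iff hn]
      omega
    rwa [e1, e2]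

/-- The product over the corners. -/
theorem prod_image_corner (hn : 0 < n) (m : ℕ) (hs : s < n) (f : ℕ → ℝ) :
    ∏ j ∈ ((range m).filter fun i => pdir p (i + 1) ≠ pdir p i).image
      (fun i => (i + 1) * n - s), f j =
    ∏ i ∈ range m, (if pdir p (i + 1) ≠ pdir p i then f ((i + 1) * n - s) else 1) := by
  rw [Finset.prod_image, Finset.prod_filter]
  intro i _ j _ h
  dsimp only at h
  have h1 : s < (i + 1) * n := by nlinarith
  have h2 : s < (j + 1) * n := by nlinarith
  have h3 : (i + 1) * n = (j + 1) * n := by omega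
  have := Nat.eq_of_mul_eq_mul_right hn h3
  omega

/-- **(a)** Free or wired, base at the corner `p 0`. -/
theorem prod_sp_zero (hn : 0 < n) (hp : IsPolygon p) (hk : k = 0 ∨ k = l * n)
    (hu : HB p S₀ n 0 a k τ η) (f : ℕ → ℝ) :
    ∏ j ∈ (enP p S₀ n 0 a k τ η).sp, f j =
      f 0 * ∏ i ∈ range (l - 1), (if pdir p (i + 1) ≠ pdir p i then f ((i + 1) * n) else 1) := by
  classical
  have hl := hp.1
  have e : (enP p S₀ n 0 a k τ η).sp =
      insert 0 (((range (l - 1)).filter fun i => pdir p (i + 1) ≠ pdir p i).image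
        (fun i => (i + 1) * n - 0)) := by
    ext j
    unfold Pg.sp
    rw [Finset.mem_filter, Finset.mem_range, Finset.mem_insert, Finset.mem_image]
    show (j < l * n ∧ (j = 0 ∨ j = k ∨ (0 < j ∧ τ j ≠ τ (j - 1)))) ↔ _
    constructor
    · rintro ⟨h1, h2 | h2 | ⟨h2, h3⟩⟩
      · exact Or.inl h2
      · left
        rcases hk with h4 | h4 <;> omega
      · right
        obtain ⟨i, rfl, h4⟩ := (corner_iff hn hp hn hu h2).1 h3
        refine ⟨i, ?_, rfl⟩
        rw [Finset.mem_filter, Finset.mem_range]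
        rw [Nat.sub_zero] at h1
        have := Nat.lt_of_mul_lt_mul_right h1
        exact ⟨by omega, h4⟩
    · rintro (rfl | ⟨i, h1, rfl⟩)
      · exact ⟨by positivity, Or.inl rfl⟩
      · rw [Finset.mem_filter, Finset.mem_range] at h1
        have h2 : (i + 1) * n < l * n := Nat.mul_lt_mul_of_pos_right (by omega) hn
        have h3 : 0 < (i + 1) * n := by positivity
        refine ⟨by omega, Or.inr (Or.inr ⟨by omega, ?_⟩)⟩
        exact (corner_iff hn hp hn hu (by omega)).2 ⟨i, rfl, h1.2⟩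
  rw [e, Finset.prod_insert, prod_image_corner hn _ hn]
  · rfl
  · rw [Finset.mem_image]
    rintro ⟨i, -, h⟩
    have h3 : 0 < (i + 1) * n := by positivity
    omega

/-- The special indices which are corners, base in the interior of a side. -/
theorem mem_corner (hn : 0 < n) (hp : IsPolygon p) (hs0 : 0 < s) (hs : s < n)
    (hu : HB p S₀ n s a k τ η) (j : ℕ) :
    (j < l * n ∧ 0 < j ∧ τ j ≠ τ (j - 1)) ↔
      j ∈ ((range l).filter fun i => pdir p (i + 1) ≠ pdir p i).image
        (fun i => (i + 1) * n - s) := by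
  rw [Finset.mem_image]
  constructor
  · rintro ⟨h1, h2, h3⟩
    obtain ⟨i, rfl, h4⟩ := (corner_iff hn hp hs hu h2).1 h3
    refine ⟨i, ?_, rfl⟩
    rw [Finset.mem_filter, Finset.mem_range]
    refine ⟨?_, h4⟩
    by_contra hc
    push Not at hc
    have h5 : (l + 1) * n ≤ (i + 1) * n := Nat.mul_le_mul_right n (by omega)
    rw [add_mul, one_mul] at h5
    omega
  · rintro ⟨i, h1, rfl⟩
    rw [Finset.mem_filter, Finset.mem_range] at h1
    have h2 : (i + 1) * n ≤ l * n := Nat.mul_le_mul_right n (by omega)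
    have h3 : 1 * n ≤ (i + 1) * n := Nat.mul_le_mul_right n (by omega)
    rw [one_mul] at h3
    refine ⟨by omega, by omega, ?_⟩
    exact (corner_iff hn hp hs hu (by omega)).2 ⟨i, rfl, h1.2⟩

/-- **(b)** Free or wired, base in the interior of the side `0`. -/
theorem prod_sp_flat (hn : 0 < n) (hp : IsPolygon p) (hs0 : 0 < s) (hs : s < n)
    (hk : k = 0 ∨ k = l * n) (hu : HB p S₀ n s a k τ η) (f : ℕ → ℝ) :
    ∏ j ∈ (enP p S₀ n s a k τ η).sp, f j =
      f 0 * ∏ i ∈ range l, (if pdir p (i + 1) ≠ pdir p i then f ((i + 1) * n - s) else 1) := by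
  classical
  have hl := hp.1
  have e : (enP p S₀ n s a k τ η).sp =
      insert 0 (((range l).filter fun i => pdir p (i + 1) ≠ pdir p i).image
        (fun i => (i + 1) * n - s)) := by
    ext j
    rw [Finset.mem_insert, ← mem_corner hn hp hs0 hs hu j]
    unfold Pg.sp
    rw [Finset.mem_filter, Finset.mem_range]
    show (j < l * n ∧ (j = 0 ∨ j = k ∨ (0 < j ∧ τ j ≠ τ (j - 1)))) ↔ _
    have h0 : 0 < l * n := by positivity
    constructor
    · rintro ⟨h1, h2 | h2 | h2⟩
      · exact Or.inl h2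
      · left
        rcases hk with h4 | h4 <;> omega
      · exact Or.inr ⟨h1, h2⟩
    · rintro (rfl | ⟨h1, h2⟩)
      · exact ⟨h0, Or.inl rfl⟩
      · exact ⟨h1, Or.inr (Or.inr h2)⟩
  rw [e, Finset.prod_insert, prod_image_corner hn _ hs]
  rw [← mem_corner hn hp hs0 hs hu 0]
  rintro ⟨-, h, -⟩
  exact absurd h (lt_irrefl 0)

/-- **(c)** Dobrushin, base in the interior of the side `0`, junction in the interior of the side
`ia`. -/
theorem prod_sp_dob (hn : 0 < n) (hp : IsPolygon p) (hs0 : 0 < s) (hs : s < n) {ia s' : ℕ}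
    (hk : k + s = ia * n + s') (hia : 0 < ia) (hial : ia < l) (hs0' : 0 < s') (hs' : s' < n)
    (hu : HB p S₀ n s a k τ η) (f : ℕ → ℝ) :
    ∏ j ∈ (enP p S₀ n s a k τ η).sp, f j =
      f 0 * f k * ∏ i ∈ range l,
        (if pdir p (i + 1) ≠ pdir p i then f ((i + 1) * n - s) else 1) := by
  classical
  have hl := hp.1
  have h1n : 1 * n ≤ ia * n := Nat.mul_le_mul_right n hia
  rw [one_mul] at h1n
  have h2n : (ia + 1) * n ≤ l * n := Nat.mul_le_mul_right n hial
  rw [add_mul, one_mul] at h2n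
  have hk0 : 0 < k := by omega
  have hkN : k < l * n := by omega
  have e : (enP p S₀ n s a k τ η).sp =
      insert 0 (insert k (((range l).filter fun i => pdir p (i + 1) ≠ pdir p i).image
        (fun i => (i + 1) * n - s))) := by
    ext j
    rw [Finset.mem_insert, Finset.mem_insert, ← mem_corner hn hp hs0 hs hu j]
    unfold Pg.sp
    rw [Finset.mem_filter, Finset.mem_range]
    show (j < l * n ∧ (j = 0 ∨ j = k ∨ (0 < j ∧ τ j ≠ τ (j - 1)))) ↔ _
    constructor
    · rintro ⟨h1, h2 | h2 | h2⟩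
      · exact Or.inl h2
      · exact Or.inr (Or.inl h2)
      · exact Or.inr (Or.inr ⟨h1, h2⟩)
    · rintro (rfl | rfl | ⟨h1, h2⟩)
      · exact ⟨by omega, Or.inl rfl⟩
      · exact ⟨hkN, Or.inr (Or.inl rfl)⟩
      · exact ⟨h1, Or.inr (Or.inr h2)⟩
  rw [e, Finset.prod_insert, Finset.prod_insert, prod_image_corner hn _ hs]
  · ring
  · rw [Finset.mem_image]
    rintro ⟨i, -, h⟩
    have h3 : 1 * n ≤ (i + 1) * n := Nat.mul_le_mul_right n (by omega)
    rw [one_mul] at h3
    have h4 : (i + 1) * n = ia * n + s' := by omega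
    rcases Nat.lt_or_ge i ia with h5 | h5
    · have h6 : (i + 1) * n ≤ ia * n := Nat.mul_le_mul_right n h5
      omega
    · have h6 : (ia + 1) * n ≤ (i + 1) * n := Nat.mul_le_mul_right n (by omega)
      rw [add_mul ia, one_mul] at h6
      omega
  · rw [Finset.mem_insert, ← mem_corner hn hp hs0 hs hu 0]
    rintro (h | ⟨-, h, -⟩)
    · omega
    · exact absurd h (lt_irrefl 0)

/-! ### (e) ranges of the turning -/

theorem K_sq (hn : 0 < n) {b : Fin 4} (hu : HB (sqP b) S₀ n 0 a k τ η) {x y : ℕ} (hxy : x ≤ y)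
    (hy : y < 4 * n) : 0 ≤ τ y - τ x ∧ τ y - τ x ≤ 3 :=
  sq_bounds hn (fun j => q_nat (S₀ := S₀) (k := k) (τ := τ) (η := η) hn (sq_poly b) j) hu hxy hy

theorem K_sq_flat (hn : 0 < n) (hs : s < n) {b : Fin 4} (hu : HB (sqP b) S₀ n s a k τ η) {x y : ℕ}
    (hxy : x ≤ y) (hy : y < 4 * n) : 0 ≤ τ y - τ x ∧ τ y - τ x ≤ 4 :=
  sq_bounds_flat hn hs (fun j => q_nat (S₀ := S₀) (k := k) (τ := τ) (η := η) hn (sq_poly b) j) hu
    hxy hy

theorem K_l (hn : 0 < n) {d : Fin 4} (hu : HB (lP d) S₀ n 0 a k τ η) {x y : ℕ} (hxy : x ≤ y)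
    (hy : y < 8 * n) : -1 ≤ τ y - τ x ∧ τ y - τ x ≤ 3 :=
  l_bounds hn (fun j => q_nat (S₀ := S₀) (k := k) (τ := τ) (η := η) hn (l_poly d) j) hu hxy hy

end Vale.Agent.P167.H318.LC
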