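import Vale.Agent.P167.H718.Lam.Defs
import Vale.Agent.P167.H318.LC.Turn

/-!
# P167, general `q`, block Q-LAM (LC): the special unit polygons

`uSq bc s`: unit square, the base is the corner with the outgoing direction `s` (free or wired).
`uL bc d`: L shape with the reflex corner `d + 1 → d`, the base is the opposite convex corner.
`uD0`, `uD4`: square with the base and the junction on the south side, without corners or with four
corners on the free arc.
-/

namespace Vale.Agent.P167.H318.LC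

open Vale.Agent.P167.E6 (IsPolygon Encloses dir face)
open Vale.Agent.P167.H825 (enl pdir ptau)
open Vale.Agent.P167.H825.Q (Bc)
open Vale.Agent.P167.H718.Lam (Uni)

/-- The square of side `2`. -/
def bqP (s : Fin 8) : ZMod 8 → ℤ × ℤ := fun (i : Fin 8) =>
  (![(0, 0), (1, 0), (2, 0), (2, 1), (2, 2), (1, 2), (0, 2), (0, 1)] : Fin 8 → ℤ × ℤ) (i + s)

/-- Its squares. -/
def bqS : Finset (ℤ × ℤ) := {(0, 0), (1, 0), (0, 1), (1, 1)}

theorem bq_poly0 : IsPolygon (bqP 0) := by
  refine ⟨by norm_num, ?_, ?_⟩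
  · unfold Function.Injective
    decide
  · decide

theorem bq_poly1 : IsPolygon (bqP 1) := by
  refine ⟨by norm_num, ?_, ?_⟩
  · unfold Function.Injective
    decide
  · decide

theorem bq_encl0 : Encloses (bqP 0) bqS := by
  refine encl_of_check ?_ ?_ <;> decide

theorem bq_encl1 : Encloses (bqP 1) bqS := by
  refine encl_of_check ?_ ?_ <;> decide

/-- The turning. -/
def bT0 : ℕ → ℤ := fun i => ([0, 0, 1, 1, 2, 2, 3, 3, 4].getD i 0)

/-- The turning. -/
def bT1 : ℕ → ℤ := fun i => ([0, 1, 1, 2, 2, 3, 3, 4, 4].getD i 0)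

theorem bq_ptau0 : ∀ i < 9, ptau (bqP 0) i = bT0 i := by
  decide

theorem bq_ptau1 : ∀ i < 9, ptau (bqP 1) i = bT1 i := by
  decide

/-- Unit square, free or wired. -/
noncomputable def uSq (bc : Bc) (s : Fin 4) : Uni := ⟨4, sqP s, sqS, bc, 0⟩

/-- L shape, free or wired. -/
noncomputable def uL (bc : Bc) (d : Fin 4) : Uni := ⟨8, lP d, lS d, bc, 0⟩

/-- Dobrushin square, no corner on the free arc. -/
noncomputable def uD0 : Uni := ⟨8, bqP 0, bqS, .dob 1 (1 / 2), 1 / 2⟩

/-- Dobrushin square, four corners on the free arc. -/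
noncomputable def uD4 : Uni := ⟨8, bqP 1, bqS, .dob 7 (1 / 2), 1 / 2⟩

/-- Free or wired. -/
def FW (bc : Bc) : Prop := bc = .free ∨ bc = .wired

theorem uSq_ok {bc : Bc} (h : FW bc) (s : Fin 4) : (uSq bc s).Ok := by
  refine ⟨sq_poly s, sq_encl s, ?_⟩
  have key : pdir (sqP s) 0 = pdir (sqP s) (4 - 1) + 1 := by
    revert s
    decide
  rcases h with rfl | rfl
  · exact ⟨rfl, key⟩
  · exact ⟨rfl, key⟩

theorem uL_ok {bc : Bc} (h : FW bc) (d : Fin 4) : (uL bc d).Ok := by
  refine ⟨l_poly d, l_encl d, ?_⟩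
  have key : pdir (lP d) 0 = pdir (lP d) (8 - 1) + 1 := by
    revert d
    decide
  rcases h with rfl | rfl
  · exact ⟨rfl, key⟩
  · exact ⟨rfl, key⟩

theorem uD0_ok : uD0.Ok := by
  refine ⟨bq_poly0, bq_encl0, ?_⟩
  refine ⟨?_, ?_, ?_, ?_, ?_, ?_, ?_, ?_⟩
  · show (0 : ℝ) < 1 / 2
    norm_num
  · show (1 : ℝ) / 2 < 1
    norm_num
  · norm_num
  · show 1 < 8
    norm_num
  · norm_num
  · norm_num
  · show pdir (bqP 0) 0 = 0
    decide
  · show pdir (bqP 0) 1 = 0
    decide

theorem uD4_ok : uD4.Ok := by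
  refine ⟨bq_poly1, bq_encl1, ?_⟩
  refine ⟨?_, ?_, ?_, ?_, ?_, ?_, ?_, ?_⟩
  · show (0 : ℝ) < 1 / 2
    norm_num
  · show (1 : ℝ) / 2 < 1
    norm_num
  · norm_num
  · show 7 < 8
    norm_num
  · norm_num
  · norm_num
  · show pdir (bqP 1) 0 = 0
    decide
  · show pdir (bqP 1) 7 = 0
    decide

end Vale.Agent.P167.H318.LC
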